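import Crest.Agent.KS.TomB
import Crest.Agent.HH.Wot
import Crest.Agent.GEN.VN

/-! Rieffel–van Daele modular theory, part D: the standard subspace of a cyclic separating vector,
the linear Radon–Nikodym lemma and the basic operator identity. -/

set_option autoImplicit false

namespace Crest.Agent.KS

open Crest.OpAlg Filter Topology Complex unitInterval
open scoped BoundedContinuousFunction InnerProductSpace ComplexConjugate

universe u

variable {H : Type u} [NormedAddCommGroup H] [InnerProductSpace ℂ H] [CompleteSpace H]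

/-- `M_sa Ω` -/
def saSet (M : VonNeumannAlgebra H) (Ω : H) : Set H := {y | ∃ x ∈ M, IsSelfAdjoint x ∧ x Ω = y}

theorem vn_smul {M : VonNeumannAlgebra H} (c : ℂ) {x : H →L[ℂ] H} (hx : x ∈ M) : c • x ∈ M :=
  M.toStarSubalgebra.smul_mem hx c

theorem vn_cfc {M : VonNeumannAlgebra H} (f : ℝ → ℝ) {x : H →L[ℂ] H} (hx : x ∈ M) :
    cfc f x ∈ M :=
  cfc_mem (𝕜' := ℂ) (s := M.toStarSubalgebra) f hx

theorem vn_comm {M : VonNeumannAlgebra H} {x y : H →L[ℂ] H} (hx : x ∈ M) (hy : y ∈ M.commutant)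
    (ξ : H) : x (y ξ) = y (x ξ) :=
  congrArg (fun a : H →L[ℂ] H => a ξ) (VonNeumannAlgebra.mem_commutant_iff.1 hy x hx)

theorem sa_inner {x : H →L[ℂ] H} (hx : IsSelfAdjoint x) (a b : H) : ⟪x a, b⟫_ℂ = ⟪a, x b⟫_ℂ :=
  ContinuousLinearMap.isSelfAdjoint_iff_isSymmetric.1 hx a b

theorem star_inner (x : H →L[ℂ] H) (a b : H) : ⟪star x a, b⟫_ℂ = ⟪a, x b⟫_ℂ := by
  rw [ContinuousLinearMap.star_eq_adjoint, ContinuousLinearMap.adjoint_inner_left]

theorem inner_star (x : H →L[ℂ] H) (a b : H) : ⟪a, star x b⟫_ℂ = ⟪x a, b⟫_ℂ := by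
  rw [ContinuousLinearMap.star_eq_adjoint, ContinuousLinearMap.adjoint_inner_right]

theorem sa_decomp {M : VonNeumannAlgebra H} {x : H →L[ℂ] H} (hx : x ∈ M) :
    ∃ a ∈ M, ∃ b ∈ M, IsSelfAdjoint a ∧ IsSelfAdjoint b ∧ x = a + Complex.I • b ∧
      star x = a - Complex.I • b := by
  refine ⟨(1 / 2 : ℂ) • (x + star x), vn_smul _ (add_mem hx (star_mem hx)),
    (-Complex.I / 2) • (x - star x), vn_smul _ (sub_mem hx (star_mem hx)), ?_, ?_, ?_, ?_⟩
  · rw [IsSelfAdjoint, star_smul, star_add, star_star, add_comm]; simp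
  · rw [IsSelfAdjoint, star_smul, star_sub, star_star, ← neg_sub x, smul_neg, ← neg_smul]
    congr 1
    simp [neg_div]
  · rw [smul_smul, show Complex.I * (-Complex.I / 2) = 1 / 2 by
      rw [neg_div, mul_neg, ← mul_div_assoc, I_mul_I]; ring]
    module
  · rw [smul_smul, show Complex.I * (-Complex.I / 2) = 1 / 2 by
      rw [neg_div, mul_neg, ← mul_div_assoc, I_mul_I]; ring]
    module

theorem total_of_dense {M : VonNeumannAlgebra H} {Ω : H}
    (hc : Dense (Set.range fun a : M => (a : H →L[ℂ] H) Ω)) {v : H}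
    (hv : ∀ x ∈ M, IsSelfAdjoint x → ⟪x Ω, v⟫_ℂ = 0) : v = 0 := by
  have : ∀ w, ⟪w, v⟫_ℂ = 0 := fun w => by
    refine DenseRange.induction_on (p := fun w => ⟪w, v⟫_ℂ = 0) hc w
      (isClosed_eq (by fun_prop) (by fun_prop)) fun a => ?_
    obtain ⟨b, hb, c, hc, h1, h2, h3, -⟩ := sa_decomp a.2
    rw [h3, add_apply, smul_apply, inner_add_left, inner_smul_left, hv b hb h1, hv c hc h2]; simp
  exact inner_self_eq_zero.1 (this v)

theorem commutant_dense {M : VonNeumannAlgebra H} {Ω : H}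
    (hs : ∀ a ∈ M, a Ω = 0 → a = 0) :
    Dense (Set.range fun a : M.commutant => (a : H →L[ℂ] H) Ω) := by
  let U : Submodule ℂ H :=
    { carrier := Set.range fun a : M.commutant => (a : H →L[ℂ] H) Ω
      add_mem' := by rintro _ _ ⟨a, rfl⟩ ⟨b, rfl⟩; exact ⟨a + b, rfl⟩
      zero_mem' := ⟨0, rfl⟩
      smul_mem' := by rintro c _ ⟨a, rfl⟩; exact ⟨⟨c • a, vn_smul c a.2⟩, rfl⟩ }
  have : U.topologicalClosure = ⊤ := by
    rw [Submodule.topologicalClosure_eq_top_iff, Submodule.eq_bot_iff]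
    intro v hv
    -- the orthogonal projection onto `Uᗮ` lies in `M` and kills `Ω`
    have hp : Uᗮ.starProjection ∈ M := by
      rw [GEN.vn_mem_iff]
      intro y hy
      have hinv : ∀ y ∈ M.commutant, ∀ ξ ∈ Uᗮ, y ξ ∈ Uᗮ := fun y hy ξ hξ => by
        refine (Submodule.mem_orthogonal _ _).2 ?_
        rintro _ ⟨a, rfl⟩
        rw [← star_inner]
        exact (Submodule.mem_orthogonal _ _).1 hξ _ ⟨⟨star y * a, mul_mem (star_mem hy) a.2⟩, rfl⟩
      ext w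
      exact GEN.proj_comm Uᗮ y (star y) (fun v w => (star_inner y v w).symm ▸ rfl)
        (hinv y hy) (hinv _ (star_mem hy)) w
    have h0 := hs _ hp (by
      rw [Submodule.starProjection_apply_eq_zero_iff]
      exact U.le_orthogonal_orthogonal ⟨1, rfl⟩)
    rw [← Submodule.starProjection_eq_self_iff.2 hv, h0]; rfl
  exact Submodule.dense_iff_topologicalClosure_eq_top.2 this

theorem im_inner_closure {M : VonNeumannAlgebra H} {Ω : H} {y : H} (hy : y ∈ closure (saSet M Ω))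
    {x' : H →L[ℂ] H} (hx' : x' ∈ M.commutant) (hsa : IsSelfAdjoint x') : (⟪y, x' Ω⟫_ℂ).im = 0 := by
  refine closure_minimal (t := {y | (⟪y, x' Ω⟫_ℂ).im = 0}) ?_
    (isClosed_eq (by fun_prop) (by fun_prop)) hy
  rintro _ ⟨x, hx, hxs, rfl⟩
  have : ⟪x Ω, x' Ω⟫_ℂ = conj ⟪x Ω, x' Ω⟫_ℂ := by
    rw [inner_conj_symm, sa_inner hxs, vn_comm hx hx', sa_inner hsa]
  exact conj_eq_iff_im.1 this.symm

omit [CompleteSpace H] in
theorem exists_rproj (S : Submodule ℝ H) [CompleteSpace S] :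
    ∃ P : H →L[ℝ] H, (∀ x, P (P x) = P x) ∧ (∀ x y, (⟪P x, y⟫_ℂ).re = (⟪x, P y⟫_ℂ).re) ∧
      ∀ y, P y = y ↔ y ∈ S := by
  let _ : InnerProductSpace ℝ H := InnerProductSpace.rclikeToReal ℂ H
  exact ⟨S.starProjection, fun x => Submodule.starProjection_eq_self_iff.2
    (S.starProjection_apply_mem x), fun x y => S.inner_starProjection_left_eq_right x y,
    fun y => Submodule.starProjection_eq_self_iff⟩

/-- `K` is the standard subspace of the cyclic separating vector `Ω`. -/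
structure Std (M : VonNeumannAlgebra H) (Ω : H) (K : SSub H) : Prop where
  cyc : Dense (Set.range fun a : M => (a : H →L[ℂ] H) Ω)
  sep : ∀ a ∈ M, a Ω = 0 → a = 0
  fix : ∀ y, K.P y = y ↔ y ∈ closure (saSet M Ω)

theorem exists_std (M : VonNeumannAlgebra H) (Ω : H)
    (hc : Dense (Set.range fun a : M => (a : H →L[ℂ] H) Ω)) (hs : ∀ a ∈ M, a Ω = 0 → a = 0) :
    ∃ K : SSub H, Std M Ω K := by
  let S : Submodule ℝ H :=
    { carrier := saSet M Ω
      add_mem' := by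
        rintro _ _ ⟨a, ha, ha', rfl⟩ ⟨b, hb, hb', rfl⟩
        exact ⟨a + b, add_mem ha hb, ha'.add hb', rfl⟩
      zero_mem' := ⟨0, zero_mem _, IsSelfAdjoint.zero _, rfl⟩
      smul_mem' := by
        rintro c _ ⟨a, ha, ha', rfl⟩
        exact ⟨(c : ℂ) • a, vn_smul _ ha,
          IsSelfAdjoint.smul (conj_ofReal c) ha', by rw [smul_apply, Complex.coe_smul]⟩ }
  have : CompleteSpace S.topologicalClosure := S.isClosed_topologicalClosure.completeSpace_coe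
  obtain ⟨P, h1, h2, h3⟩ := exists_rproj S.topologicalClosure
  have h3' : ∀ y, P y = y ↔ y ∈ closure (saSet M Ω) := h3
  refine ⟨⟨P, h1, h2, fun y hy hy' => ?_, fun y hy hy' => ?_⟩, hc, hs, h3'⟩
  · refine total_of_dense (commutant_dense hs) fun x hx hxs => ?_
    have a1 := im_inner_closure ((h3' _).1 hy) hx hxs
    have a2 := im_inner_closure ((h3' _).1 hy') hx hxs
    rw [inner_smul_left] at a2
    rw [← inner_conj_symm, map_eq_zero]
    apply Complex.ext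
    · simpa using a2
    · exact a1
  · refine total_of_dense hc fun x hx hxs => ?_
    have hP : P (x Ω) = x Ω := (h3' _).2 (subset_closure ⟨x, hx, hxs, rfl⟩)
    have a1 := h2 (x Ω) y
    have a2 := h2 (x Ω) (Complex.I • y)
    rw [hP, hy, inner_zero_right] at a1
    rw [hP, hy', inner_zero_right, inner_smul_right] at a2
    apply Complex.ext
    · exact a1
    · simpa using a2

theorem sign_ops {M : VonNeumannAlgebra H} {h : H →L[ℂ] H} (hh : h ∈ M)
    (hs : IsSelfAdjoint h) (ε : ℝ) (hε : 0 < ε) :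
    ∃ a ∈ M, ∃ b ∈ M, ∃ s ∈ M, ∃ d : H →L[ℂ] H, IsSelfAdjoint a ∧ IsSelfAdjoint b ∧
      IsSelfAdjoint s ∧ IsSelfAdjoint d ∧ ‖s‖ ≤ 1 ∧ h * s = s * h ∧ a * a - b * b = h ∧
      a * a + b * b + d * d = h * s + algebraMap ℝ _ ε := by
  let fs : ℝ → ℝ := fun t => t / (|t| + ε)
  have cs : Continuous fs := continuous_id.div (by fun_prop) fun t => by positivity
  let fa : ℝ → ℝ := fun t => √(max t 0)
  let fb : ℝ → ℝ := fun t => √(max (-t) 0)
  let fd : ℝ → ℝ := fun t => √(t * fs t + ε - |t|)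
  have ca : Continuous fa := by fun_prop
  have cb : Continuous fb := by fun_prop
  have cd : Continuous fd := by fun_prop
  have sa : ∀ f : ℝ → ℝ, IsSelfAdjoint (cfc f h) := fun f => IsSelfAdjoint.cfc
  refine ⟨cfc fa h, vn_cfc _ hh, cfc fb h, vn_cfc _ hh, cfc fs h, vn_cfc _ hh, cfc fd h, sa _, sa _,
    sa _, sa _, norm_cfc_le zero_le_one fun t _ => ?_, ?_, ?_, ?_⟩
  · simp only [fs, Real.norm_eq_abs, abs_div, abs_of_pos (show 0 < |t| + ε by positivity)]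
    rw [div_le_one (by positivity)]; linarith
  · have := (cfc_commute_cfc id fs h).eq
    rwa [cfc_id ℝ h] at this
  · rw [← cfc_mul .., ← cfc_mul .., ← cfc_sub ..]
    conv_rhs => rw [← cfc_id' ℝ h]
    refine cfc_congr fun t _ => ?_
    simp only [fa, fb, Real.mul_self_sqrt (le_max_right _ _)]
    rcases le_total t 0 with ht | ht
    · rw [max_eq_right ht, max_eq_left (by linarith)]; ring
    · rw [max_eq_left ht, max_eq_right (by linarith)]; ring
  · rw [← cfc_mul .., ← cfc_mul .., ← cfc_mul .., ← cfc_add .., ← cfc_add ..]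
    conv_rhs => rw [← cfc_const ε h]; enter [1, 1]; rw [← cfc_id' ℝ h]
    rw [← cfc_mul .., ← cfc_add ..]
    refine cfc_congr fun t _ => ?_
    have h0 : 0 ≤ t * fs t + ε - |t| := by
      have : |t| - ε ≤ t * fs t := by
        simp only [fs]
        rw [← mul_div_assoc, le_div_iff₀ (by positivity)]
        nlinarith [abs_mul_abs_self t]
      linarith
    simp only [fa, fb, fd, Real.mul_self_sqrt (le_max_right _ _), Real.mul_self_sqrt h0]
    rcases le_total t 0 with ht | ht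
    · rw [max_eq_right ht, max_eq_left (by linarith), abs_of_nonpos ht]; ring
    · rw [max_eq_left ht, max_eq_right (by linarith), abs_of_nonneg ht]; ring

theorem sign_ineq {M : VonNeumannAlgebra H} (Ω : H) {h x' : H →L[ℂ] H} (hh : h ∈ M)
    (hs : IsSelfAdjoint h) (hx' : x' ∈ M.commutant) (ε : ℝ) (hε : 0 < ε) :
    ∃ s ∈ M, IsSelfAdjoint s ∧ ‖s‖ ≤ 1 ∧ (⟪h Ω, s Ω⟫_ℂ).im = 0 ∧
      (⟪h Ω, x' Ω⟫_ℂ).re ≤ ‖x'‖ * ((⟪h Ω, s Ω⟫_ℂ).re + ε * ‖Ω‖ ^ 2) := by
  obtain ⟨a, ha, b, hb, s, hsM, d, sa, sb, ss, sd, hn, hc, e1, e2⟩ := sign_ops hh hs ε hε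
  have nsq : ∀ f : H →L[ℂ] H, IsSelfAdjoint f → (⟪Ω, (f * f) Ω⟫_ℂ).re = ‖f Ω‖ ^ 2 := fun f hf => by
    rw [← re_inner_self, sa_inner hf]; rfl
  have bd : ∀ f ∈ M, IsSelfAdjoint f → |(⟪(f * f) Ω, x' Ω⟫_ℂ).re| ≤ ‖x'‖ * ‖f Ω‖ ^ 2 :=
    fun f hf hfs => by
    rw [mul_apply_eq_comp, sa_inner hfs, vn_comm hf hx']
    refine (abs_re_le_norm _).trans ((norm_inner_le_norm _ _).trans ?_)
    have := x'.le_opNorm (f Ω)
    nlinarith [norm_nonneg (f Ω)]
  refine ⟨s, hsM, ss, hn, ?_, ?_⟩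
  · apply conj_eq_iff_im.1
    rw [inner_conj_symm, sa_inner ss, sa_inner hs, ← mul_apply_eq_comp s, ← mul_apply_eq_comp h, hc]
  · have e3 := congrArg (fun a : H →L[ℂ] H => (⟪Ω, a Ω⟫_ℂ).re) e2
    simp only [add_apply, inner_add_right, add_re, nsq a sa, nsq b sb, nsq d sd] at e3
    rw [Algebra.algebraMap_eq_smul_one, smul_apply, one_apply_eq_self, SSub.re_inner_rsmul_right,
      re_inner_self, mul_apply_eq_comp, ← sa_inner hs] at e3
    rw [← e3]
    conv_lhs => rw [← e1, sub_apply, inner_sub_left, sub_re]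
    have b1 := (abs_le.1 (bd a ha sa)).2
    have b2 := (abs_le.1 (bd b hb sb)).1
    have := mul_nonneg (norm_nonneg x') (sq_nonneg ‖d Ω‖)
    nlinarith

namespace Std

variable {M : VonNeumannAlgebra H} {Ω : H} {K : SSub H} (S : Std M Ω K)
include S

theorem P_sa {x : H →L[ℂ] H} (hx : x ∈ M) (hs : IsSelfAdjoint x) : K.P (x Ω) = x Ω :=
  (S.fix _).2 (subset_closure ⟨x, hx, hs, rfl⟩)

theorem P_mem (y : H) : K.P y ∈ closure (saSet M Ω) := (S.fix _).1 (K.idem y)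

theorem Q_sa' {x : H →L[ℂ] H} (hx : x ∈ M.commutant) (hs : IsSelfAdjoint x) : K.Q (x Ω) = 0 := by
  have h1 := im_inner_closure (S.P_mem (Complex.I • x Ω)) hx hs
  have h2 : ‖K.P (Complex.I • x Ω)‖ ^ 2 = 0 := by
    rw [← re_inner_self, ← K.symm, K.idem, inner_smul_right]; simp [h1]
  rw [SSub.Q_apply, norm_eq_zero.1 (pow_eq_zero_iff two_ne_zero |>.1 h2)]; simp

theorem P_vac : K.P Ω = Ω := S.P_sa (one_mem M) (IsSelfAdjoint.one _)

theorem Q_vac : K.Q Ω = 0 := S.Q_sa' (one_mem _) (IsSelfAdjoint.one _)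

theorem J_vac : K.J Ω = Ω := K.J_fix S.P_vac S.Q_vac

theorem cyc' : Dense (Set.range fun a : M.commutant => (a : H →L[ℂ] H) Ω) :=
  commutant_dense S.sep

theorem A_mem {u : H →L[ℂ] H} (hu : u ∈ M) :
    K.A (u Ω) = (2 : ℂ) • (star u Ω - K.E (star u Ω)) := by
  obtain ⟨a, ha, b, hb, h1, h2, h3, h4⟩ := sa_decomp hu
  rw [h4, h3]
  simp only [add_apply, sub_apply, smul_apply, map_add, map_sub, map_smulₛₗ, conj_I,
    K.A_of_P (S.P_sa ha h1), K.A_of_P (S.P_sa hb h2), RingHom.id_apply]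
  module

/-- linear Radon–Nikodym lemma -/
theorem rn {x' : H →L[ℂ] H} (hx' : x' ∈ M.commutant) (ν : ℂ) (hν : 0 < ν.re) :
    ∃ x ∈ M, IsSelfAdjoint x ∧ K.P (x' Ω) = K.P (ν • x Ω) := by
  set c : ℝ := ‖x'‖ / ν.re with hc
  have hc0 : 0 ≤ c := by positivity
  let V : Set H := {v | ∃ x ∈ M, IsSelfAdjoint x ∧ ‖x‖ ≤ c ∧ K.P (ν • x Ω) = v}
  have hconv : Convex ℝ V := by
    rintro _ ⟨x, hx, hxs, hxn, rfl⟩ _ ⟨y, hy, hys, hyn, rfl⟩ a b ha hb hab
    refine ⟨(a : ℂ) • x + (b : ℂ) • y, add_mem (vn_smul _ hx) (vn_smul _ hy),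
      (IsSelfAdjoint.smul (conj_ofReal a) hxs).add (IsSelfAdjoint.smul (conj_ofReal b) hys), ?_, ?_⟩
    · refine (norm_add_le _ _).trans ?_
      rw [norm_smul, norm_smul, norm_real, norm_real, Real.norm_of_nonneg ha,
        Real.norm_of_nonneg hb]
      calc a * ‖x‖ + b * ‖y‖ ≤ a * c + b * c := by gcongr
        _ = c := by rw [← add_mul, hab, one_mul]
    · rw [add_apply, smul_apply, smul_apply, smul_add, smul_comm ν (a : ℂ), smul_comm ν (b : ℂ),
        Complex.coe_smul, Complex.coe_smul, map_add, K.P.map_smul, K.P.map_smul]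
  have hmem : K.P (x' Ω) ∈ closure V := by
    by_contra hn
    obtain ⟨f, u, h1, h2⟩ := RCLike.geometric_hahn_banach_closed_point (𝕜 := ℂ) hconv.closure
      isClosed_closure hn
    obtain ⟨ζ, rfl⟩ := (InnerProductSpace.toDual ℂ H).surjective f
    simp only [InnerProductSpace.toDual_apply_apply, RCLike.re_to_complex] at h1 h2
    rw [← K.symm] at h2
    have h3 : ∀ x ∈ M, IsSelfAdjoint x → ‖x‖ ≤ c → (⟪K.P ζ, ν • x Ω⟫_ℂ).re < u :=
      fun x hx hxs hxn => by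
        rw [K.symm]; exact h1 _ (subset_closure ⟨x, hx, hxs, hxn, rfl⟩)
    set g : ℝ := (⟪K.P ζ, x' Ω⟫_ℂ).re - u with hg
    have hg0 : 0 < g := by linarith
    set L : ℝ := ‖x' Ω‖ + ‖ν‖ * (c * ‖Ω‖) + ‖x'‖ * ‖Ω‖ ^ 2 + 1 with hL
    have hL0 : 0 < L := by positivity
    obtain ⟨_, ⟨h, hh, hs, rfl⟩, hd⟩ := Metric.mem_closure_iff.1 (S.P_mem ζ) (g / L) (by positivity)
    rw [dist_eq_norm] at hd
    obtain ⟨s, hsM, hss, hsn, him, hre⟩ := sign_ineq Ω hh hs hx' (g / L) (by positivity)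
    have hxn : ‖(c : ℂ) • s‖ ≤ c := by
      rw [norm_smul, norm_real, Real.norm_of_nonneg hc0]; nlinarith
    have h4 := h3 _ (vn_smul c hsM) (IsSelfAdjoint.smul (conj_ofReal c) hss) hxn
    have h5 : (⟪h Ω, ν • ((c : ℂ) • s) Ω⟫_ℂ).re = ‖x'‖ * (⟪h Ω, s Ω⟫_ℂ).re := by
      rw [smul_apply, inner_smul_right, inner_smul_right]
      simp only [mul_re, mul_im, ofReal_re, ofReal_im, him, hc]
      field_simp; ring
    have h6 : ∀ w : H, |(⟪K.P ζ, w⟫_ℂ).re - (⟪h Ω, w⟫_ℂ).re| ≤ g / L * ‖w‖ := fun w => by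
      rw [← sub_re, ← inner_sub_left]
      exact (abs_re_le_norm _).trans ((norm_inner_le_norm _ _).trans (by gcongr))
    have h7 := (abs_le.1 (h6 (x' Ω))).2
    have h8 := (abs_le.1 (h6 (ν • ((c : ℂ) • s) Ω))).1
    have h9 : ‖ν • ((c : ℂ) • s) Ω‖ ≤ ‖ν‖ * (c * ‖Ω‖) := by
      rw [norm_smul]
      gcongr
      exact (((c : ℂ) • s).le_opNorm Ω).trans (by gcongr)
    have h10 : g / L * ‖ν • ((c : ℂ) • s) Ω‖ ≤ g / L * (‖ν‖ * (c * ‖Ω‖)) := by gcongr
    have h11 : g / L * L = g := by field_simp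
    have h12 : 0 < g / L := by positivity
    rw [hL] at h11
    nlinarith
  obtain ⟨v, hv, hlim⟩ := mem_closure_iff_seq_limit.1 hmem
  choose x hx hxs hxn hxv using hv
  let 𝒰 : Ultrafilter ℕ := Ultrafilter.of atTop
  obtain ⟨a, -, ha⟩ := HH.wotLim (M := M) 𝒰 (fun n => ⟨x n, hx n⟩) c
    (Eventually.of_forall fun n => hxn n)
  have hsa : star a = a := HH.WL.unique ha.star (by
    have : (fun n => star (⟨x n, hx n⟩ : HH.Al M)) = fun n => ⟨x n, hx n⟩ :=
      funext fun n => Subtype.ext (hxs n).star_eq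
    rw [this]; exact ha)
  refine ⟨a, a.2, congrArg Subtype.val hsa, ?_⟩
  have key : ∀ w, (⟪w, K.P (x' Ω)⟫_ℂ).re = (⟪w, K.P (ν • (a : H →L[ℂ] H) Ω)⟫_ℂ).re := fun w => by
    have l1 : Tendsto (fun n => (⟪w, v n⟫_ℂ).re) 𝒰 (𝓝 (⟪w, K.P (x' Ω)⟫_ℂ).re) :=
      ((continuous_re.tendsto _).comp (tendsto_const_nhds.inner hlim)).mono_left
        (Ultrafilter.of_le _)
    have l2 := (continuous_re.tendsto _).comp ((ha (K.P w) Ω).const_mul ν)
    refine tendsto_nhds_unique l1 ?_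
    rw [← K.symm, inner_smul_right]
    refine l2.congr fun n => ?_
    simp only [Function.comp]
    rw [← hxv n, ← K.symm, inner_smul_right]
  have := key (K.P (x' Ω) - K.P (ν • (a : H →L[ℂ] H) Ω))
  rw [← sub_eq_zero, ← sub_re, ← inner_sub_right, re_inner_self] at this
  exact sub_eq_zero.1 (norm_eq_zero.1 (pow_eq_zero_iff two_ne_zero |>.1 this))

theorem exists_A {y' : H →L[ℂ] H} (hy' : y' ∈ M.commutant) (hs : IsSelfAdjoint y') :
    ∃ y ∈ M, IsSelfAdjoint y ∧ K.A (y' Ω) = y Ω := by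
  obtain ⟨y, hy, hys, h⟩ := S.rn hy' 1 (by simp)
  exact ⟨y, hy, hys, by rw [(K.A_of_Q (S.Q_sa' hy' hs)).2, h, one_smul, S.P_sa hy hys]⟩

/-- the basic operator identity (RvD Lemma 4.5) -/
theorem basic {x' : H →L[ℂ] H} (hx' : x' ∈ M.commutant) (hxs' : IsSelfAdjoint x') (ν : ℂ)
    (hν : 0 < ν.re) : ∃ x ∈ M, ∀ ζ, K.A (x' (K.A ζ)) =
      (2 * conj ν) • (x (K.E ζ) - K.E (x (K.E ζ))) + (2 * ν) • K.E (x (ζ - K.E ζ)) := by
  obtain ⟨x, hx, hxs, hP⟩ := S.rn hx' ν hν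
  refine ⟨x, hx, ?_⟩
  have h1 : ∀ y ∈ M, IsSelfAdjoint y →
      2 * ⟪y Ω, x' Ω⟫_ℂ = ν * ⟪y Ω, x Ω⟫_ℂ + conj ν * ⟪x Ω, y Ω⟫_ℂ := fun y hy hys => by
    have a1 := im_inner_closure (Ω := Ω) (y := y Ω) (subset_closure ⟨y, hy, hys, rfl⟩) hx' hxs'
    have a2 : (⟪y Ω, x' Ω⟫_ℂ).re = (ν * ⟪y Ω, x Ω⟫_ℂ).re := by
      rw [← inner_smul_right, ← S.P_sa hy hys, K.symm, K.symm, hP]
    rw [← inner_conj_symm (x Ω), ← map_mul, add_conj, ← a2]
    apply Complex.ext <;> simp [a1]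
  have h2 : ∀ y ∈ M, 2 * ⟪y Ω, x' Ω⟫_ℂ = ν * ⟪y Ω, x Ω⟫_ℂ + conj ν * ⟪x Ω, star y Ω⟫_ℂ :=
    fun y hy => by
    obtain ⟨a, ha, b, hb, e1, e2, e3, e4⟩ := sa_decomp hy
    rw [e4, e3]
    simp only [add_apply, sub_apply, smul_apply, inner_add_left, inner_sub_right, inner_smul_left,
      inner_smul_right, conj_I]
    linear_combination h1 a ha e1 - Complex.I * h1 b hb e2
  let X : H →L[ℂ] H := K.A.comp (x'.comp K.A) -
    ((2 * conj ν) • ((1 - K.E) * x * K.E) + (2 * ν) • (K.E * x * (1 - K.E)))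
  have hX : ∀ ζ, X ζ = K.A (x' (K.A ζ)) -
      ((2 * conj ν) • (x (K.E ζ) - K.E (x (K.E ζ))) + (2 * ν) • K.E (x (ζ - K.E ζ))) :=
    fun _ => rfl
  have h3 : ∀ z' ∈ M.commutant, IsSelfAdjoint z' → X (z' Ω) = 0 := fun z' hz' hzs' => by
    refine total_of_dense S.cyc' fun y' hy' hys' => ?_
    obtain ⟨y, hy, hys, ey⟩ := S.exists_A hy' hys'
    obtain ⟨z, hz, hzs, ez⟩ := S.exists_A hz' hzs'
    have e := h2 (z * y) (mul_mem hz hy)
    rw [star_mul, hys.star_eq, hzs.star_eq, mul_apply_eq_comp, mul_apply_eq_comp, sa_inner hzs,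
      sa_inner hzs, vn_comm hz hx', ← sa_inner hys (x Ω)] at e
    have f1 : ⟪y Ω, x' (z Ω)⟫_ℂ = ⟪K.A (x' (K.A (z' Ω))), y' Ω⟫_ℂ := by
      rw [← ey, K.A_inner, ez]
    have f2 : ⟪y Ω, z (x Ω)⟫_ℂ =
        4 * ⟪x (K.E (z' Ω)) - K.E (x (K.E (z' Ω))), y' Ω⟫_ℂ := by
      rw [← ey, K.A_inner, ← mul_apply_eq_comp, S.A_mem (mul_mem hz hx), star_mul, hxs.star_eq,
        hzs.star_eq, mul_apply_eq_comp, ← ez, (K.A_of_Q (S.Q_sa' hz' hzs')).1]
      simp only [map_smul, ← smul_sub, inner_smul_left, map_ofNat]; ring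
    have f3 : ⟪y (x Ω), z Ω⟫_ℂ = 4 * ⟪K.E (x (z' Ω - K.E (z' Ω))), y' Ω⟫_ℂ := by
      rw [← ez, ← inner_conj_symm, K.A_inner, inner_conj_symm, ← mul_apply_eq_comp,
        S.A_mem (mul_mem hy hx), star_mul, hxs.star_eq, hys.star_eq, mul_apply_eq_comp, ← ey,
        (K.A_of_Q (S.Q_sa' hy' hys')).1, K.E_inner, sa_inner hxs, inner_sub_left, K.E_inner]
      simp only [map_smul, ← smul_sub, inner_smul_right, inner_sub_right]; ring
    rw [f1, f2, f3] at e
    rw [← inner_conj_symm, map_eq_zero, hX, inner_sub_left, inner_add_left, inner_smul_left,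
      inner_smul_left]
    simp only [map_mul, map_ofNat, conj_conj]
    linear_combination (1 / 2 : ℂ) * e
  have h4 : ∀ ζ, X ζ = 0 := fun ζ => by
    refine ext_inner_left ℂ fun w => ?_
    have : star X w = 0 := total_of_dense S.cyc' fun z' hz' hzs' => by
      rw [inner_star, h3 z' hz' hzs', inner_zero_left]
    rw [← star_inner, this, inner_zero_left, inner_zero_right]
  intro ζ
  exact sub_eq_zero.1 ((hX ζ).symm.trans (h4 ζ))

end Std

end Crest.Agent.KS
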