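import Crest.Agent.KS.TomC
import Crest.Agent.KS.TomD

/-! Rieffel–van Daele modular theory, part E: Tomita's theorem. -/

set_option autoImplicit false

namespace Crest.Agent.KS

open Crest.OpAlg Filter Topology Complex unitInterval MeasureTheory
open scoped BoundedContinuousFunction InnerProductSpace ComplexConjugate

universe u

variable {H : Type u} [NormedAddCommGroup H] [InnerProductSpace ℂ H] [CompleteSpace H]

theorem wR_le_one (r : I) : wR r ≤ 1 := by
  have := wR_sq r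
  nlinarith [wR_nonneg r, sq_nonneg (2 * (r : ℝ) - 1)]

theorem norm_gf_le (f : ℝ →ᵇ ℂ) : ‖gf f‖ ≤ ‖f‖ :=
  (ContinuousMap.norm_le _ (norm_nonneg _)).2 fun r => by
    rw [gf_apply, norm_mul, norm_real, Real.norm_of_nonneg (wR_nonneg r)]
    nlinarith [f.norm_coe_le_norm (lg r), wR_le_one r, wR_nonneg r, norm_nonneg (f (lg r))]

theorem norm_character_le (t : ℝ) : ‖LineCalculus.character t‖ ≤ 1 :=
  (BoundedContinuousFunction.norm_le zero_le_one).2 fun u => by
    rw [H0112.character_apply, Complex.norm_exp_I_mul_ofReal]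

theorem continuous_gf_character : Continuous fun t : ℝ => gf (LineCalculus.character t) := by
  refine ContinuousMap.continuous_of_continuous_uncurry _ ?_
  refine cont_mul_w (X := ℝ × I) Prod.snd continuous_snd
    (fun p => LineCalculus.character p.1 (lg p.2)) 1 (fun p => ?_) fun p h0 h1 => ?_
  · rw [H0112.character_apply, Complex.norm_exp_I_mul_ofReal]
  · simp only [H0112.character_apply]
    have : ContinuousAt (fun q : ℝ × I => lg q.2) p :=
      (continuousAt_lg h0 h1).comp continuous_snd.continuousAt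
    fun_prop

theorem norm_rI_le : ‖rI‖ ≤ 1 := (ContinuousMap.norm_le _ zero_le_one).2 fun r => by
  rw [rI_apply, norm_real, Real.norm_of_nonneg r.2.1]; exact r.2.2

theorem norm_one_sub_rI_le : ‖1 - rI‖ ≤ 1 := (ContinuousMap.norm_le _ zero_le_one).2 fun r => by
  rw [ContinuousMap.sub_apply, ContinuousMap.one_apply, rI_apply, ← ofReal_one, ← ofReal_sub,
    norm_real, Real.norm_of_nonneg (sub_nonneg.2 r.2.2)]
  linarith [r.2.1]

/-- the phase attached to `θ` -/
noncomputable def nu (θ : ℝ) : ℂ := -Complex.I * Complex.exp (Complex.I * (Real.pi * θ : ℝ))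

theorem nu_re (θ : ℝ) : (nu θ).re = Real.sin (Real.pi * θ) := by
  unfold nu
  rw [mul_comm Complex.I ((Real.pi * θ : ℝ) : ℂ), neg_mul, neg_re, mul_re, I_re, I_im,
    Complex.exp_ofReal_mul_I_im]
  ring

theorem norm_nu (θ : ℝ) : ‖nu θ‖ = 1 := by
  unfold nu; rw [norm_mul, norm_neg, norm_I, Complex.norm_exp_I_mul_ofReal, one_mul]

theorem kernel_identity {θ : ℝ} (h0 : 0 < θ) (h1 : θ < 1) (τ : ℝ) :
    (∫ v : ℝ, ker θ v * Complex.exp (Complex.I * ((v / (2 * Real.pi) * τ : ℝ) : ℂ))) *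
      (conj (nu θ) * Real.exp (τ / 2) + nu θ * Real.exp (-τ / 2)) = 2 * Real.pi := by
  have hpi : (Real.pi : ℂ) ≠ 0 := ofReal_ne_zero.2 Real.pi_ne_zero
  set a : ℂ := θ + Complex.I * ((τ / (2 * Real.pi) : ℝ) : ℂ) with ha
  have hre : a.re = θ := by simp only [ha, add_re, ofReal_re, mul_re, I_re, I_im, ofReal_im]; ring
  have e1 : ∀ v : ℝ, ker θ v * Complex.exp (Complex.I * ((v / (2 * Real.pi) * τ : ℝ) : ℂ)) =
      ker a v := fun v => by
    unfold ker
    rw [div_mul_eq_mul_div, ← Complex.exp_add]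
    congr 2
    rw [ha]; push_cast; ring
  have e2 : conj (nu θ) * Real.exp (τ / 2) + nu θ * Real.exp (-τ / 2) =
      2 * Complex.sin (Real.pi * a) := by
    rw [Complex.two_sin, nu, map_mul, map_neg, conj_I, ← Complex.exp_conj, map_mul, conj_I,
      conj_ofReal, ofReal_exp, ofReal_exp, mul_assoc, mul_assoc, ← Complex.exp_add,
      ← Complex.exp_add]
    have f1 : -(↑Real.pi * a) * Complex.I =
        -Complex.I * ((Real.pi * θ : ℝ) : ℂ) + ((τ / 2 : ℝ) : ℂ) := by
      rw [ha]; push_cast; field_simp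
      linear_combination (-(τ : ℂ)) * I_mul_I
    have f2 : (↑Real.pi * a) * Complex.I =
        Complex.I * ((Real.pi * θ : ℝ) : ℂ) + ((-τ / 2 : ℝ) : ℂ) := by
      rw [ha]; push_cast; field_simp
      linear_combination (τ : ℂ) * I_mul_I
    rw [f1, f2]; ring
  have hs : Complex.sin (Real.pi * a) ≠ 0 := by
    rw [Ne, Complex.sin_eq_zero_iff]
    rintro ⟨k, hk⟩
    have : a = k := by
      apply mul_left_cancel₀ hpi; rw [hk]; ring
    have h2 : θ = k := by rw [← hre, this]; simp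
    rw [h2] at h0 h1
    have a0 : (0 : ℤ) < k := by exact_mod_cast h0
    have a1 : k < (1 : ℤ) := by exact_mod_cast h1
    omega
  simp_rw [e1]
  rw [integral_ker (by rwa [hre]) (by rwa [hre]), e2]
  field_simp

namespace SSub

variable (K : SSub H)

/-- `J x J` -/
noncomputable def cJ (x : H →L[ℂ] H) : H →L[ℂ] H := K.J0.comp (x.comp K.J0)

theorem cJ_apply (x : H →L[ℂ] H) (ξ : H) : K.cJ x ξ = K.J (x (K.J ξ)) := rfl

theorem cJ_cJ (x : H →L[ℂ] H) : K.cJ (K.cJ x) = x := by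
  ext ξ; rw [cJ_apply, cJ_apply, J_J, J_J]

theorem cJ_mul (x y : H →L[ℂ] H) : K.cJ (x * y) = K.cJ x * K.cJ y := by
  ext ξ; simp only [mul_apply_eq_comp, cJ_apply, J_J]

theorem cJ_add (x y : H →L[ℂ] H) : K.cJ (x + y) = K.cJ x + K.cJ y := by
  ext ξ; simp only [add_apply, cJ_apply, map_add]

theorem cJ_smul (c : ℂ) (x : H →L[ℂ] H) : K.cJ (c • x) = conj c • K.cJ x := by
  ext ξ; simp only [smul_apply, cJ_apply, LinearIsometryEquiv.map_smulₛₗ]

theorem cJ_one : K.cJ 1 = 1 := by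
  ext ξ; simp only [cJ_apply, one_apply_eq_self, J_J]

theorem cJ_star (x : H →L[ℂ] H) : K.cJ (star x) = star (K.cJ x) := by
  ext ξ
  refine ext_inner_right ℂ fun η => ?_
  rw [star_inner, cJ_apply, cJ_apply, J_inner, inner_star, ← inner_J_J K (K.J ξ), J_J]

theorem norm_cJ_le (x : H →L[ℂ] H) : ‖K.cJ x‖ ≤ ‖x‖ :=
  ContinuousLinearMap.opNorm_le_bound _ (norm_nonneg _) fun ξ => by
    rw [cJ_apply, K.J.norm_map]
    exact (x.le_opNorm _).trans (by rw [K.J.norm_map])

theorem norm_cJ (x : H →L[ℂ] H) : ‖K.cJ x‖ = ‖x‖ :=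
  le_antisymm (K.norm_cJ_le x) (by simpa only [cJ_cJ] using K.norm_cJ_le (K.cJ x))

/-- the modular flow -/
noncomputable def flow (t : ℝ) (a : H →L[ℂ] H) : H →L[ℂ] H := K.D.wave t * a * K.D.wave (-t)

theorem flow_apply (t : ℝ) (a : H →L[ℂ] H) (ξ : H) :
    K.flow t a ξ = K.D.wave t (a (K.D.wave (-t) ξ)) := rfl

theorem norm_flow_apply (t : ℝ) (a : H →L[ℂ] H) (ξ : H) : ‖K.flow t a ξ‖ ≤ ‖a‖ * ‖ξ‖ := by
  rw [flow_apply, H0112.norm_wave]
  exact (a.le_opNorm _).trans (by rw [H0112.norm_wave])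

theorem continuous_flow (a : H →L[ℂ] H) (ξ : H) : Continuous fun t => K.flow t a ξ := by
  rw [continuous_iff_continuousAt]
  intro s
  have c1 : Continuous fun t => a (K.D.wave (-t) ξ) :=
    a.continuous.comp ((H0112.continuous_wave K.D ξ).comp continuous_neg)
  have c2 := H0112.continuous_wave K.D (a (K.D.wave (-s) ξ))
  have e : ∀ t, K.flow t a ξ = K.D.wave t (a (K.D.wave (-t) ξ) - a (K.D.wave (-s) ξ)) +
      K.D.wave t (a (K.D.wave (-s) ξ)) := fun t => by rw [← map_add, sub_add_cancel]; rfl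
  have l1 : Tendsto (fun t => K.D.wave t (a (K.D.wave (-t) ξ) - a (K.D.wave (-s) ξ))) (𝓝 s)
      (𝓝 0) := by
    rw [tendsto_zero_iff_norm_tendsto_zero]
    simp_rw [H0112.norm_wave]
    exact tendsto_iff_norm_sub_tendsto_zero.1 (c1.tendsto s)
  have := l1.add (c2.tendsto s)
  rw [zero_add] at this
  unfold ContinuousAt
  simp_rw [e]
  simpa using this

theorem ψ_eig {x : H} (hx : K.E x = (1 / 2 : ℂ) • x) (g : C(I, ℂ)) :
    K.ψ g x = g ⟨1 / 2, by norm_num, by norm_num⟩ • x := by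
  refine bern_ind (fun g => K.ψ g x = g ⟨1 / 2, by norm_num, by norm_num⟩ • x) ?_ ?_ ?_ ?_ ?_ g
  · refine isClosed_eq ((ContinuousLinearMap.apply ℂ H x).continuous.comp K.continuous_ψ) ?_
    have e : Continuous fun g : C(I, ℂ) => g ⟨1 / 2, by norm_num, by norm_num⟩ :=
      continuous_eval_const _
    exact e.smul (continuous_const (y := x))
  · simp
  · intro f g hf hg; simp [hf, hg, add_smul]
  · intro c g hg; simp [hg, smul_smul]
  · intro g hg
    rw [ψ_mul, hg, ψ_rI, map_smul, hx, smul_smul]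
    congr 1
    simp [mul_comm]

theorem D_fix {x : H} (h1 : K.P x = x) (h2 : K.Q x = 0) (f : ℝ →ᵇ ℂ) :
    K.D.apply f x = f 0 • x := by
  have hE : K.E x = (1 / 2 : ℂ) • x := by
    rw [E_apply, h1, h2, add_zero, ← Complex.coe_smul]; norm_num
  have hl : lg ⟨1 / 2, by norm_num, by norm_num⟩ = 0 := by unfold lg; norm_num
  apply K.T_injective
  rw [T_D, map_smul, T_eq, ψ_eig K hE, ψ_eig K hE, gf_apply, hl, smul_smul, wI_apply]

/-- RvD Lemma 4.6 -/
theorem fourier_formula {θ : ℝ} (h0 : 0 < θ) (h1 : θ < 1) (a x : H →L[ℂ] H)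
    (h : ∀ ζ, K.T (a (K.T ζ)) = (2 * conj (nu θ)) • (x (K.E ζ) - K.E (x (K.E ζ))) +
      (2 * nu θ) • K.E (x (ζ - K.E ζ))) (ξ : H) :
    ∫ v, ker θ v • K.flow (v / (2 * Real.pi)) a ξ = (Real.pi : ℂ) • x ξ := by
  have hk : Integrable (ker θ) := integrable_ker (by simpa) (by simpa)
  have hint : ∀ ξ, Integrable fun v => ker θ v • K.flow (v / (2 * Real.pi)) a ξ := fun ξ =>
    (hk.norm.mul_const (‖a‖ * ‖ξ‖)).mono'
      (hk.1.smul ((K.continuous_flow a ξ).comp (by fun_prop)).aestronglyMeasurable)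
      (ae_of_all _ fun v => by
        rw [norm_smul]; exact mul_le_mul_of_nonneg_left (K.norm_flow_apply _ _ _) (norm_nonneg _))
  let X : H →L[ℂ] H := LinearMap.mkContinuous
    { toFun := fun ξ => ∫ v, ker θ v • K.flow (v / (2 * Real.pi)) a ξ
      map_add' := fun ξ η => by simp only [map_add, smul_add]; exact integral_add (hint ξ) (hint η)
      map_smul' := fun c ξ => by
        simp only [map_smul, RingHom.id_apply, smul_comm _ c]; exact integral_smul c _ }
    ((∫ v, ‖ker θ v‖) * ‖a‖) fun ξ => by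
      refine (norm_integral_le_integral_norm _).trans ?_
      rw [mul_assoc, ← integral_mul_const]
      refine integral_mono (hint ξ).norm (hk.norm.mul_const _) fun v => ?_
      simp only [norm_smul]
      exact mul_le_mul_of_nonneg_left (K.norm_flow_apply _ _ _) (norm_nonneg _)
  have hX : ∀ ξ, X ξ = ∫ v, ker θ v • K.flow (v / (2 * Real.pi)) a ξ := fun _ => rfl
  rw [← hX]
  refine K.TT_dense.induction_on (p := fun ξ => X ξ = (Real.pi : ℂ) • x ξ) ξ
    (isClosed_eq (by fun_prop) (by fun_prop)) fun ζ => ?_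
  apply K.T_injective
  apply K.T_injective
  let B0 : C(I, ℂ) →ₗ[ℂ] C(I, ℂ) →ₗ[ℂ] H := LinearMap.mk₂ ℂ (fun f g => K.ψ f (x (K.ψ g ζ)))
    (fun f f' g => by simp) (fun c f g => by simp) (fun f g g' => by simp) (fun c f g => by simp)
  have hB0 : ∀ f g, ‖B0 f g‖ ≤ (‖x‖ * ‖ζ‖) * ‖f‖ * ‖g‖ := fun f g => by
    have b1 := ((K.ψ g).le_opNorm ζ).trans
      (mul_le_mul_of_nonneg_right (K.norm_ψ_le g) (norm_nonneg _))
    have b2 := (x.le_opNorm (K.ψ g ζ)).trans (mul_le_mul_of_nonneg_left b1 (norm_nonneg _))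
    have b3 := ((K.ψ f).le_opNorm (x (K.ψ g ζ))).trans
      (mul_le_mul (K.norm_ψ_le f) b2 (norm_nonneg _) (norm_nonneg _))
    exact b3.trans (le_of_eq (by ring))
  let g : ℝ → C(I, ℂ) := fun t => gf (LineCalculus.character t)
  have gc : Continuous fun v : ℝ => g (v / (2 * Real.pi)) :=
    continuous_gf_character.comp (by fun_prop)
  have gc' : Continuous fun v : ℝ => g (-(v / (2 * Real.pi))) :=
    continuous_gf_character.comp (by fun_prop)
  have gn : ∀ t, ‖g t‖ ≤ 1 := fun t => (norm_gf_le _).trans (norm_character_le t)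
  have nb : ∀ (c : ℂ) (f f' : C(I, ℂ)), ‖c‖ ≤ 2 → ‖f‖ ≤ 1 → ‖f'‖ ≤ 1 → ‖c • (f * f')‖ ≤ 2 :=
    fun c f f' hc hf hf' => by
      rw [norm_smul]
      have := (norm_mul_le f f').trans (mul_le_one₀ hf (norm_nonneg _) hf')
      nlinarith [norm_nonneg c, norm_nonneg (f * f')]
  have cc1 : ∀ (c : ℂ) (f : C(I, ℂ)), Continuous fun v : ℝ => c • (g (v / (2 * Real.pi)) * f) :=
    fun c f => (gc.mul continuous_const).const_smul c
  have cc2 : ∀ (c : ℂ) (f : C(I, ℂ)), Continuous fun v : ℝ => c • (f * g (-(v / (2 * Real.pi)))) :=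
    fun c f => (continuous_const.mul gc').const_smul c
  have key := bilin_integral (B0.mkContinuous₂ _ hB0) (‖x‖ * ‖ζ‖) (by positivity) hB0 (ker θ) hk
    (fun v => (2 * conj (nu θ)) • (g (v / (2 * Real.pi)) * (1 - rI)))
    (fun v => (1 : ℂ) • (rI * g (-(v / (2 * Real.pi)))))
    (fun v => (2 * nu θ) • (g (v / (2 * Real.pi)) * rI))
    (fun v => (1 : ℂ) • ((1 - rI) * g (-(v / (2 * Real.pi)))))
    (cc1 _ _) (cc2 _ _) (cc1 _ _) (cc2 _ _) 2
    (fun v => nb _ _ _ (by simp [norm_nu]) (gn _) norm_one_sub_rI_le)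
    (fun v => nb _ _ _ (by simp) norm_rI_le (gn _))
    (fun v => nb _ _ _ (by simp [norm_nu]) (gn _) norm_rI_le)
    (fun v => nb _ _ _ (by simp) norm_one_sub_rI_le (gn _))
    ((Real.pi : ℂ) • (wI * wI)) (wI * wI) (fun r r' => by
      by_cases hr : 0 < (r : ℝ) ∧ (r : ℝ) < 1
      swap
      · simp [g, wR_eq_zero hr]
      by_cases hr' : 0 < (r' : ℝ) ∧ (r' : ℝ) < 1
      swap
      · simp [g, wR_eq_zero hr']
      have a1 := congrArg (fun t : ℝ => (t : ℂ)) (wR_mul_exp hr.1 hr.2)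
      have a2 := congrArg (fun t : ℝ => (t : ℂ)) (wR_mul_exp_neg hr.1 hr.2)
      have a3 := congrArg (fun t : ℝ => (t : ℂ)) (wR_mul_exp hr'.1 hr'.2)
      have a4 := congrArg (fun t : ℝ => (t : ℂ)) (wR_mul_exp_neg hr'.1 hr'.2)
      simp only [ofReal_mul, ofReal_sub, ofReal_one, ofReal_ofNat] at a1 a2 a3 a4
      have k := kernel_identity h0 h1 (lg r - lg r')
      have x1 : ((Real.exp ((lg r - lg r') / 2) : ℝ) : ℂ) =
          Real.exp (lg r / 2) * Real.exp (-lg r' / 2) := by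
        rw [← ofReal_mul, ← Real.exp_add]; congr 2; ring
      have x2 : ((Real.exp (-(lg r - lg r') / 2) : ℝ) : ℂ) =
          Real.exp (-lg r / 2) * Real.exp (lg r' / 2) := by
        rw [← ofReal_mul, ← Real.exp_add]; congr 2; ring
      rw [x1, x2] at k
      have e : ∀ v : ℝ, ker θ v *
          (((2 * conj (nu θ)) • (g (v / (2 * Real.pi)) * (1 - rI))) r *
            ((1 : ℂ) • (rI * g (-(v / (2 * Real.pi))))) r' +
          ((2 * nu θ) • (g (v / (2 * Real.pi)) * rI)) r *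
            ((1 : ℂ) • ((1 - rI) * g (-(v / (2 * Real.pi))))) r') =
          ker θ v * Complex.exp (Complex.I * ((v / (2 * Real.pi) * (lg r - lg r') : ℝ) : ℂ)) *
            ((wR r : ℂ) * wR r' * (2 * conj (nu θ) * (1 - (r : ℝ)) * (r' : ℝ) +
              2 * nu θ * (r : ℝ) * (1 - (r' : ℝ)))) := fun v => by
        have : Complex.exp (Complex.I * ((v / (2 * Real.pi) * (lg r - lg r') : ℝ) : ℂ)) =
            Complex.exp (Complex.I * ((v / (2 * Real.pi) * lg r : ℝ) : ℂ)) *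
            Complex.exp (Complex.I * ((-(v / (2 * Real.pi)) * lg r' : ℝ) : ℂ)) := by
          rw [← Complex.exp_add]; congr 1; push_cast; ring
        simp only [g, ContinuousMap.smul_apply, ContinuousMap.mul_apply, gf_apply,
          H0112.character_apply, ContinuousMap.sub_apply, ContinuousMap.one_apply, rI_apply,
          smul_eq_mul, this]
        ring
      simp_rw [e]
      rw [integral_mul_const]
      simp only [ContinuousMap.smul_apply, ContinuousMap.mul_apply, wI_apply, smul_eq_mul]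
      have b1 : (1 : ℂ) - (r : ℝ) = wR r * Real.exp (lg r / 2) / 2 := by rw [a1]; ring
      have b3 : (1 : ℂ) - (r' : ℝ) = wR r' * Real.exp (lg r' / 2) / 2 := by rw [a3]; ring
      have b2 : ((r : ℝ) : ℂ) = wR r * Real.exp (-lg r / 2) / 2 := by rw [a2]; ring
      have b4 : ((r' : ℝ) : ℂ) = wR r' * Real.exp (-lg r' / 2) / 2 := by rw [a4]; ring
      rw [b1, b3]
      conv_lhs => rw [b2, b4]
      linear_combination ((wR r : ℂ) * wR r * wR r' * wR r' / 2) * k)
  have hB : ∀ f g, B0.mkContinuous₂ _ hB0 f g = K.ψ f (x (K.ψ g ζ)) := fun _ _ => rfl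
  simp only [hB] at key
  rw [hX, ← K.T.integral_comp_comm (hint _), ← K.T.integral_comp_comm
    (K.T.integrable_comp (hint _))]
  simp only [map_smul, smul_apply, ψ_mul, ← T_eq] at key ⊢
  rw [← key]
  refine integral_congr_ae (ae_of_all _ fun v => ?_)
  simp only
  congr 1
  have w1 : ∀ t y, K.D.wave t (K.T y) = K.T (K.D.wave t y) := fun t y => K.D_ψ _ wI y
  have w2 : ∀ t y, K.T (K.D.wave t y) = K.ψ (g t) y := fun t y => K.T_D _ y
  have w3 : ∀ t y, K.D.wave t (K.T (K.T y)) = K.T (K.ψ (g t) y) := fun t y => by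
    rw [w1, w1, w2 t y]
  rw [flow_apply, w3, w2, ← ψ_T, h]
  simp only [map_add, map_smul, map_sub, map_one, ψ_rI, one_smul, sub_apply, one_apply_eq_self]

end SSub

namespace Std

variable {M : VonNeumannAlgebra H} {Ω : H} {K : SSub H} (S : Std M Ω K)
include S

theorem D_vac (f : ℝ →ᵇ ℂ) : K.D.apply f Ω = f 0 • Ω := K.D_fix S.P_vac S.Q_vac f

theorem wave_vac (t : ℝ) : K.D.wave t Ω = Ω := by
  unfold LineCalculus.wave; rw [S.D_vac]; simp

theorem flow_cJ_sa {x' : H →L[ℂ] H} (hx' : x' ∈ M.commutant) (hs : IsSelfAdjoint x') (t : ℝ) :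
    K.flow t (K.cJ x') ∈ M := by
  rw [GEN.vn_mem_iff]
  intro y hy
  ext ξ
  refine ext_inner_left ℂ fun η => sub_eq_zero.1 ?_
  have hpi : 2 * Real.pi ≠ 0 := by positivity
  let F : ℝ → ℂ := fun v => ⟪star y η, K.flow (v / (2 * Real.pi)) (K.cJ x') ξ⟫_ℂ -
    ⟪η, K.flow (v / (2 * Real.pi)) (K.cJ x') (y ξ)⟫_ℂ
  have c1 : ∀ ξ, Continuous fun v : ℝ => K.flow (v / (2 * Real.pi)) (K.cJ x') ξ := fun ξ =>
    (K.continuous_flow _ ξ).comp (by fun_prop)
  have := laplace_unique F ((continuous_const.inner (c1 ξ)).sub (continuous_const.inner (c1 _)))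
    (‖star y η‖ * (‖K.cJ x'‖ * ‖ξ‖) + ‖η‖ * (‖K.cJ x'‖ * ‖y ξ‖))
    (fun v => (norm_sub_le _ _).trans (add_le_add
      ((norm_inner_le_norm _ _).trans (by gcongr; exact K.norm_flow_apply _ _ _))
      ((norm_inner_le_norm _ _).trans (by gcongr; exact K.norm_flow_apply _ _ _))))
    (fun θ h0 h1 => by
      have hν : 0 < (nu θ).re := by
        rw [nu_re]
        exact Real.sin_pos_of_pos_of_lt_pi (by positivity) (by nlinarith [Real.pi_pos])
      obtain ⟨x, hx, hb⟩ := S.basic hx' hs (nu θ) hν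
      have hf := K.fourier_formula h0 h1 (K.cJ x') x fun ζ => by
        rw [K.cJ_apply, K.J_T, K.T_J, hb]
      have hk : Integrable (ker θ) := integrable_ker (by simpa) (by simpa)
      have hint : ∀ ξ, Integrable fun v => ker θ v • K.flow (v / (2 * Real.pi)) (K.cJ x') ξ :=
        fun ξ => (hk.norm.mul_const (‖K.cJ x'‖ * ‖ξ‖)).mono'
          (hk.1.smul (c1 ξ).aestronglyMeasurable) (ae_of_all _ fun v => by
            rw [norm_smul]
            exact mul_le_mul_of_nonneg_left (K.norm_flow_apply _ _ _) (norm_nonneg _))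
      have i1 := integral_inner (𝕜 := ℂ) (hint ξ) (star y η)
      have i2 := integral_inner (𝕜 := ℂ) (hint (y ξ)) η
      have j1 := (hint ξ).const_inner (𝕜 := ℂ) (star y η)
      have j2 := (hint (y ξ)).const_inner (𝕜 := ℂ) η
      simp only [inner_smul_right] at i1 i2 j1 j2
      simp only [F, mul_sub]
      rw [integral_sub j1 j2, i1, i2, hf, hf, star_inner, map_smul, vn_comm hx hy, sub_self])
    (t * (2 * Real.pi))
  simp only [F, mul_div_cancel_right₀ _ hpi, star_inner] at this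
  exact this

theorem flow_cJ {x' : H →L[ℂ] H} (hx' : x' ∈ M.commutant) (t : ℝ) : K.flow t (K.cJ x') ∈ M := by
  obtain ⟨a, ha, b, hb, h1, h2, h3, -⟩ := sa_decomp hx'
  have : K.flow t (K.cJ x') = K.flow t (K.cJ a) + conj Complex.I • K.flow t (K.cJ b) := by
    rw [h3, K.cJ_add, K.cJ_smul]
    simp only [SSub.flow, mul_add, add_mul, mul_smul_comm, smul_mul_assoc]
  rw [this]
  exact add_mem (S.flow_cJ_sa ha h1 t) (vn_smul _ (S.flow_cJ_sa hb h2 t))

/-- `J M' J ⊆ M` -/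
theorem cJ_mem {x' : H →L[ℂ] H} (hx' : x' ∈ M.commutant) : K.cJ x' ∈ M := by
  have := S.flow_cJ hx' 0
  rwa [SSub.flow, neg_zero, H0112.wave_zero, one_mul, mul_one] at this

theorem inner_J_mem {x y : H →L[ℂ] H} (hx : x ∈ M) (hy : y ∈ M) :
    ⟪y Ω, K.J (x Ω)⟫_ℂ = ⟪K.J (star y Ω), star x Ω⟫_ℂ := by
  have h1 : ∀ x ∈ M, IsSelfAdjoint x → ∀ y ∈ M, IsSelfAdjoint y →
      ⟪y Ω, K.J (x Ω)⟫_ℂ = ⟪K.J (y Ω), x Ω⟫_ℂ := fun x hx hxs y hy hys => by
    have a1 : (⟪y Ω, K.J (x Ω)⟫_ℂ).im = 0 := by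
      have e : K.Q (Complex.I • y Ω) = Complex.I • y Ω := by rw [K.Q_I, S.P_sa hy hys]
      rw [im_inner, ← e, K.Q_symm, K.Q_J (S.P_sa hx hxs), inner_zero_right, zero_re]
    rw [K.J_inner (y Ω), ← inner_conj_symm (K.J (x Ω)), conj_eq_iff_im.2 a1]
  obtain ⟨a, ha, b, hb, e1, e2, e3, e4⟩ := sa_decomp hx
  obtain ⟨c, hc, d, hd, f1, f2, f3, f4⟩ := sa_decomp hy
  rw [e4, f4, e3, f3]
  simp only [add_apply, sub_apply, smul_apply, map_add, map_sub, LinearIsometryEquiv.map_smulₛₗ,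
    inner_add_left, inner_add_right, inner_sub_left, inner_sub_right, inner_smul_left,
    inner_smul_right, conj_I, map_neg, h1 a ha e1 c hc f1, h1 a ha e1 d hd f2, h1 b hb e2 c hc f1,
    h1 b hb e2 d hd f2]
  ring

theorem J_mul {x y : H →L[ℂ] H} (hx : x ∈ M) (hy : y ∈ M) : y (K.J (x Ω)) = K.cJ x (y Ω) := by
  refine sub_eq_zero.1 (total_of_dense S.cyc' fun z hz hzs => ?_)
  have hb := S.cJ_mem hz
  have e := S.inner_J_mem (mul_mem (star_mem hb) hx) (star_mem hy)
  have e1 : K.J ((star (K.cJ z) * x) Ω) = z (K.J (x Ω)) := by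
    rw [← K.cJ_star, hzs.star_eq, mul_apply_eq_comp, K.cJ_apply, K.J_J]
  rw [e1, star_star, star_mul, star_star, mul_apply_eq_comp, K.cJ_apply, S.J_vac, inner_star,
    ← sa_inner hzs, ← vn_comm (star_mem hy) hz, star_inner] at e
  rw [inner_sub_right, e, K.cJ_apply, ← K.inner_J_J (K.J (z Ω)), K.J_J, sub_self]

/-- `J M J ⊆ M'` -/
theorem cJ_mem' {x : H →L[ℂ] H} (hx : x ∈ M) : K.cJ x ∈ M.commutant := by
  rw [VonNeumannAlgebra.mem_commutant_iff]
  intro y hy
  ext ξ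
  refine DenseRange.induction_on (p := fun ξ => (y * K.cJ x) ξ = (K.cJ x * y) ξ) S.cyc ξ
    (isClosed_eq (by fun_prop) (by fun_prop)) fun z => ?_
  rw [mul_apply_eq_comp, mul_apply_eq_comp, ← S.J_mul hx z.2, ← mul_apply_eq_comp y z,
    ← mul_apply_eq_comp y z, S.J_mul hx (mul_mem hy z.2)]

theorem cJ_mem_iff (x : H →L[ℂ] H) : K.cJ x ∈ M.commutant ↔ x ∈ M :=
  ⟨fun h => K.cJ_cJ x ▸ S.cJ_mem h, S.cJ_mem'⟩

/-- `Δ^{it} M Δ^{-it} ⊆ M` -/
theorem flow_mem (t : ℝ) {x : H →L[ℂ] H} (hx : x ∈ M) : K.flow t x ∈ M :=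
  K.cJ_cJ x ▸ S.flow_cJ (S.cJ_mem' hx) t

/-- `J x⋆ Ω = Δ^{1/2} x Ω` -/
theorem halfExp {x : H →L[ℂ] H} (hx : x ∈ M) : K.D.HalfExp (x Ω) (K.J (star x Ω)) := by
  obtain ⟨a, ha, b, hb, e1, e2, e3, e4⟩ := sa_decomp hx
  rw [K.halfExp_iff, e4, e3]
  simp only [add_apply, sub_apply, smul_apply, map_add, map_sub, K.P_I, K.Q_I, S.P_sa ha e1,
    S.P_sa hb e2]
  constructor <;> abel

theorem tomita : closure (Set.range fun a : M => ((a : H →L[ℂ] H) Ω, star (a : H →L[ℂ] H) Ω)) =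
    {p : H × H | K.D.HalfExp p.1 (K.J p.2)} := by
  apply Set.Subset.antisymm
  · refine closure_minimal ?_ ?_
    · rintro _ ⟨a, rfl⟩; exact S.halfExp a.2
    · simp only [K.halfExp_iff, Set.ofPred_and]
      exact (isClosed_eq (by fun_prop) (by fun_prop)).inter (isClosed_eq (by fun_prop) (by fun_prop))
  · rintro ⟨x, y⟩ hp
    obtain ⟨h1, h2⟩ := (K.halfExp_iff x y).1 hp
    have h3 : K.P (-(Complex.I • (x - y))) = -(Complex.I • (x - y)) := by
      rw [map_neg, K.P_I, h2]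
    let φ : H × H → H × H := fun p =>
      ((1 / 2 : ℂ) • (p.1 + Complex.I • p.2), (1 / 2 : ℂ) • (p.1 - Complex.I • p.2))
    have hφ : Continuous φ := by fun_prop
    have hm : (x + y, -(Complex.I • (x - y))) ∈ closure (saSet M Ω ×ˢ saSet M Ω) := by
      rw [closure_prod_eq]; exact ⟨(S.fix _).1 h1, (S.fix _).1 h3⟩
    have := map_mem_closure hφ hm (t := Set.range fun a : M =>
      ((a : H →L[ℂ] H) Ω, star (a : H →L[ℂ] H) Ω)) (by
        rintro ⟨_, _⟩ ⟨⟨a, ha, e1, rfl⟩, ⟨b, hb, e2, rfl⟩⟩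
        refine ⟨⟨(1 / 2 : ℂ) • (a + Complex.I • b), vn_smul _ (add_mem ha (vn_smul _ hb))⟩, ?_⟩
        simp only [φ, star_smul, star_add, e1.star_eq, e2.star_eq, smul_apply, add_apply,
          RCLike.star_def, conj_I, neg_smul, neg_apply, sub_eq_add_neg, map_div₀, map_one,
          map_ofNat])
    convert this using 1
    simp only [φ, smul_neg, I_I, neg_neg]
    ext <;> simp only <;> module

/-- the modular datum of a cyclic separating unit vector -/
noncomputable def datum (h1 : ‖Ω‖ = 1) : ModularDatum H where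
  M := M
  vac := Ω
  norm_vac := h1
  cyclic := S.cyc
  separating := S.sep
  D := K.D
  flow_mem t _ ha := S.flow_mem t ha
  J := K.J
  J_J := K.J_J
  tomita := S.tomita

end Std

end Crest.Agent.KS
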