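import Crest.Agent.KS.DS
import Crest.Agent.S0161

/-! Uniform constants for the vanishing of Hochschild cohomology. -/

set_option autoImplicit false

namespace Crest.Agent.KS
open Crest.Agent.GEN Crest.Agent.HH Crest.Agent.HH.LTm

universe u

theorem listT : ListThm.{u} :=
  have hc := HH.cover HH.cmp HH.sumPI
  HH.listThm HH.split HH.prism (HH.fixCB HH.fact HH.exMin HH.specP)
    (HH.fixFin HH.exMin HH.fixC (HH.core HH.exModel (HH.stepM HH.expand)
      (HH.stepN HH.expand HH.nuAPI) HH.riesz HH.nuAPI HH.sig)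
      (HH.dich hc HH.cSupp HH.maxPI HH.polar)
      (HH.traceThm (HH.appTr HH.maxPI HH.cmp HH.specP HH.polar hc))
      (HH.dixThmN HH.specP HH.cmp) HH.cSupp HH.nuAPI)

section
variable {A B D : Type u} [CStarAlgebra A] [CStarAlgebra B] [CStarAlgebra D]

lemma del_map (p : A →ₗ[ℂ] B) (hp : ∀ x y, p (x * y) = p x * p y) (α : D → A) (β : D → B)
    (hα : ∀ x y, α (x * y) = α x * α y) (hβ : ∀ x, p (α x) = β x) (l : List D) :
    ∀ (φ : List A → A) (ψ : List B → B),
      (∀ r : List D, r.length + 1 = l.length → p (φ (r.map α)) = ψ (r.map β)) →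
      p (del φ (l.map α)) = del ψ (l.map β) := by
  have hβ' : ∀ x y, β (x * y) = β x * β y := fun x y => by rw [← hβ, hα, hp, hβ, hβ]
  induction l with
  | nil => intro φ ψ _; simp [del]
  | cons x l ih =>
    intro φ ψ h
    cases l with
    | nil =>
      have := h [] rfl
      simp only [List.map_nil] at this
      simp [del, hp, this, hβ]
    | cons y r =>
      have h1 := h (x * y :: r) (by simp)
      have h2 := ih (fun l => φ (α x :: l)) (fun l => ψ (β x :: l)) fun s hs =>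
        h (x :: s) (by simpa using hs)
      simp only [List.map_cons, hα, hβ'] at h1 h2
      simp only [List.map_cons, del, map_sub, map_neg, h1, h2]

lemma dd_map (p : A →ₗ[ℂ] B) (hp : ∀ x y, p (x * y) = p x * p y) (α : D → A) (β : D → B)
    (hα : ∀ x y, α (x * y) = α x * α y) (hβ : ∀ x, p (α x) = β x) (l : List D)
    (φ : List A → A) (ψ : List B → B)
    (h : ∀ r : List D, r.length + 1 = l.length → p (φ (r.map α)) = ψ (r.map β)) :
    p (dd φ (l.map α)) = dd ψ (l.map β) := by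
  rw [dd, dd, map_add, del_map p hp α β hα hβ l φ ψ h]
  congr 1
  cases l with
  | nil => simp [lam]
  | cons x l => simp only [List.map_cons, lam, hp, hβ, h l rfl]

lemma np_map_le (α : A → B) (h : ∀ x, ‖α x‖ ≤ ‖x‖) (l : List A) : np (l.map α) ≤ np l := by
  induction l with
  | nil => simp [np]
  | cons x l ih =>
    simp only [np, List.map_cons, List.prod_cons] at ih ⊢
    exact mul_le_mul (h x) ih (np_nonneg (l.map α)) (norm_nonneg _)

lemma lin_map {n : ℕ} {φ : List B → B} (h : Lin n φ) (α : A →ₗ[ℂ] B) (p q : List A)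
    (e : p.length + q.length + 1 = n) :
    IsLinearMap ℂ fun x => φ ((p ++ x :: q).map α) := by
  have := h (p.map α) (q.map α) (by simpa using e)
  simp only [List.map_append, List.map_cons]
  exact (this.mk' _ ∘ₗ α).isLinear

lemma dd_smul (c : ℂ) (φ : List A → A) (l : List A) :
    dd (fun r => c • φ r) l = c • dd φ l := by
  cases l <;> simp [dd, lam, del_smul]

lemma lin_smul {n : ℕ} {φ : List A → A} (c : ℂ) (h : Lin n φ) : Lin n fun l => c • φ l :=
  fun p q e => (c • (h p q e).mk' _).isLinear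

end

lemma glue_cob {n : ℕ} {A : ℕ → Type u} [∀ k, CStarAlgebra (A k)] {P : Type u} [CStarAlgebra P]
    (hP : ∀ φ : List P → P, Lin (n + 1) φ → Bd (n + 1) 1 φ → Coc (n + 1) φ → Cob n φ)
    (π : ∀ k, P →ₗ[ℂ] A k) (j : ∀ k, A k →ₗ[ℂ] P)
    (πm : ∀ k x y, π k (x * y) = π k x * π k y) (πn : ∀ k x, ‖π k x‖ ≤ ‖x‖)
    (πj : ∀ k x, π k (j k x) = x) (jm : ∀ k x y, j k (x * y) = j k x * j k y)
    (jn : ∀ k x, ‖j k x‖ ≤ ‖x‖) (ext : ∀ x y, (∀ k, π k x = π k y) → x = y)
    (glue : ∀ (x : ∀ k, A k) (B : ℝ), 0 ≤ B → (∀ k, ‖x k‖ ≤ B) →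
      ∃ X, ‖X‖ ≤ B ∧ ∀ k, π k X = x k)
    (φ : ∀ k, List (A k) → A k) (h1 : ∀ k, Lin (n + 1) (φ k)) (h2 : ∀ k, Bd (n + 1) 1 (φ k))
    (h3 : ∀ k, Coc (n + 1) (φ k)) :
    ∃ k : ℕ, ∃ g, Lin n g ∧ Bd n k g ∧ ∀ l, l.length = n + 1 → dd g l = φ k l := by
  have : ∀ l : List P, ∃ X : P, l.length = n + 1 →
      ‖X‖ ≤ np l ∧ ∀ k, π k X = φ k (l.map (π k)) := fun l => by
    by_cases hl : l.length = n + 1
    · obtain ⟨X, hX⟩ := glue (fun k => φ k (l.map (π k))) (np l) (np_nonneg l) fun k =>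
        (h2 k _ (by simpa using hl)).trans (by rw [one_mul]; exact np_map_le _ (πn k) l)
      exact ⟨X, fun _ => hX⟩
    · exact ⟨0, fun h => absurd h hl⟩
  choose F hF using this
  obtain ⟨g, C, g1, g2, g3⟩ := hP F
    (fun p q e => by
      have hl : ∀ x, (p ++ x :: q).length = n + 1 := fun x => by simp; omega
      exact ⟨fun x y => ext _ _ fun k => by
          rw [map_add, (hF _ (hl _)).2, (hF _ (hl _)).2, (hF _ (hl _)).2]
          exact (lin_map (h1 k) (π k) p q e).1 x y,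
        fun c x => ext _ _ fun k => by
          rw [map_smul, (hF _ (hl _)).2, (hF _ (hl _)).2]
          exact (lin_map (h1 k) (π k) p q e).2 c x⟩)
    (fun l hl => by rw [one_mul]; exact (hF l hl).1)
    (fun l hl => ext _ _ fun k => by
      have := dd_map (π k) (πm k) id (π k) (fun _ _ => rfl) (fun _ => rfl) l F (φ k)
        fun r hr => by rw [List.map_id]; exact (hF r (by omega)).2 k
      rw [List.map_id] at this
      rw [this, map_zero]
      exact h3 k _ (by simpa using hl))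
  obtain ⟨k, hk⟩ := exists_nat_ge (max C 0)
  refine ⟨k, fun l => π k (g (l.map (j k))),
    fun p q e => ((π k) ∘ₗ (lin_map g1 (j k) p q e).mk' _).isLinear,
    fun l hl => (πn k _).trans ((g2 _ (by simpa using hl)).trans
      ((mul_le_mul_of_nonneg_right (le_max_left C 0) (np_nonneg _)).trans
        (mul_le_mul hk (np_map_le _ (jn k) l) (np_nonneg _) (Nat.cast_nonneg k)))),
    fun l hl => ?_⟩
  have := dd_map (π k) (πm k) (j k) id (jm k) (πj k) l g (fun l => π k (g (l.map (j k))))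
    fun r _ => by rw [List.map_id]
  rw [List.map_id] at this
  rw [← this, g3 _ (by simpa using hl), (hF _ (by simpa using hl)).2, List.map_map]
  congr 1
  exact List.map_id'' (πj k) l

theorem unif1 (n : ℕ) : ∃ K : ℝ, 0 ≤ K ∧ AllVN.{u} fun _ _ _ _ M => ∀ φ : List (Al M) → Al M,
    Lin (n + 1) φ → Bd (n + 1) 1 φ → Coc (n + 1) φ →
      ∃ g, Lin n g ∧ Bd n K g ∧ ∀ l, l.length = n + 1 → dd g l = φ l := by
  by_contra hc
  have : ∀ k : ℕ, ∃ (H : Type u) (_ : NormedAddCommGroup H) (_ : InnerProductSpace ℂ H)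
      (_ : CompleteSpace H) (M : VonNeumannAlgebra H) (φ : List (Al M) → Al M),
      Lin (n + 1) φ ∧ Bd (n + 1) 1 φ ∧ Coc (n + 1) φ ∧
      ¬ ∃ g, Lin n g ∧ Bd n k g ∧ ∀ l, l.length = n + 1 → dd g l = φ l := fun k => by
    by_contra h
    refine hc ⟨k, Nat.cast_nonneg k, fun H i1 i2 i3 M φ h1 h2 h3 => ?_⟩
    by_contra h4
    exact h ⟨H, i1, i2, i3, M, φ, h1, h2, h3, h4⟩
  choose H i1 i2 i3 M φ h1 h2 h3 h4 using this
  obtain ⟨P, π, j, πm, πn, πj, jm, jn, ext, glue⟩ := ds M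
  obtain ⟨k, hk⟩ := glue_cob (A := fun k => Al (M k)) (P := Al P)
    (fun φ => listT _ P n φ 1 zero_le_one) π j πm πn πj jm jn ext glue φ h1 h2 h3
  exact h4 k hk

theorem unif (n : ℕ) : ∃ K : ℝ, 0 ≤ K ∧ AllVN.{u} fun _ _ _ _ M =>
    ∀ (φ : List (Al M) → Al M) (C : ℝ), 0 < C →
    Lin (n + 1) φ → Bd (n + 1) C φ → Coc (n + 1) φ →
      ∃ g, Lin n g ∧ Bd n (K * C) g ∧ ∀ l, l.length = n + 1 → dd g l = φ l := by
  obtain ⟨K, hK, h⟩ := unif1.{u} n
  refine ⟨K, hK, fun H _ _ _ M φ C hC h1 h2 h3 => ?_⟩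
  have hC' : (C : ℂ) ≠ 0 := by exact_mod_cast hC.ne'
  obtain ⟨g, g1, g2, g3⟩ := h H M (fun l => (C : ℂ)⁻¹ • φ l) (lin_smul _ h1)
    (fun l hl => by
      rw [norm_smul, norm_inv, Complex.norm_real, Real.norm_of_nonneg hC.le, one_mul,
        inv_mul_le_iff₀ hC]
      exact h2 l hl)
    (fun l hl => by rw [dd_smul, h3 l hl, smul_zero])
  refine ⟨fun l => (C : ℂ) • g l, lin_smul _ g1, fun l hl => ?_, fun l hl => ?_⟩
  · rw [norm_smul, Complex.norm_real, Real.norm_of_nonneg hC.le, mul_comm K, mul_assoc]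
    exact mul_le_mul_of_nonneg_left (g2 l hl) hC.le
  · rw [dd_smul, g3 l hl, smul_smul, mul_inv_cancel₀ hC', one_smul]

/-- approximate 2-cocycles are approximate coboundaries -/
def HS (A : Type u) [CStarAlgebra A] (K : ℝ) : Prop :=
  ∀ (c : A → A → A) (η γ : ℝ), 0 < η → 0 < γ → (∀ x, IsLinearMap ℂ (c x)) →
    (∀ y, IsLinearMap ℂ fun x => c x y) → (∀ x y, ‖c x y‖ ≤ η * (‖x‖ * ‖y‖)) →
    (∀ x y z, ‖x * c y z - c (x * y) z + c x (y * z) - c x y * z‖ ≤ γ * (‖x‖ * ‖y‖ * ‖z‖)) →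
    ∃ b : A → A, IsLinearMap ℂ b ∧ (∀ x, ‖b x‖ ≤ K * (η + γ) * ‖x‖) ∧
      ∀ x y, ‖c x y - (x * b y - b (x * y) + b x * y)‖ ≤ K * γ * (‖x‖ * ‖y‖)

theorem hs : ∃ K : ℝ, 1 ≤ K ∧ AllVN.{u} fun _ _ _ _ M => HS (Al M) K := by
  obtain ⟨K1, hK1, h1⟩ := unif.{u} 1
  obtain ⟨K2, hK2, h2⟩ := unif.{u} 2
  refine ⟨(K1 + 1) * (K2 + 1), by nlinarith, fun H _ _ _ M c η γ hη hγ l1 l2 b1 b2 => ?_⟩
  let φ : List (Al M) → Al M := fun l => c (l.getD 0 0) (l.getD 1 0)
  have e2 : ∀ l : List (Al M), l.length = 2 → ∃ x y, l = [x, y] := fun l hl =>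
    List.length_eq_two.1 hl
  have φ1 : Lin 2 φ := lin_succ.2 ⟨fun l _ => l2 (l.getD 0 0), fun x => lin_succ.2
    ⟨fun l _ => l1 x, fun _ p q e => by omega⟩⟩
  have φ2 : Bd 2 η φ := fun l hl => by
    obtain ⟨x, y, rfl⟩ := e2 l hl
    simpa [φ, np] using b1 x y
  obtain ⟨g, g1, g2, g3⟩ := h2 H M (dd φ) γ hγ (lin_dd φ1)
    (fun l hl => by
      obtain ⟨x, y, z, rfl⟩ := List.length_eq_three.1 hl
      have := b2 x y z
      simp only [φ, np, dd, lam, del, List.getD_cons_zero, List.getD_cons_succ, List.map_cons,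
        List.map_nil, List.prod_cons, List.prod_nil, mul_one, ← mul_assoc ‖x‖]
      convert this using 2
      abel)
    (fun l hl => by
      match l, hl with
      | x :: y :: r, _ => exact dd_dd _ _ _ _)
  obtain ⟨f, f1, f2, f3⟩ := h1 H M (fun l => φ l + -g l) (η + K2 * γ) (by positivity)
    (lin_add φ1 (lin_neg g1))
    (fun l hl => by
      rw [add_mul]
      exact norm_add_le_of_le (φ2 l hl) (by rw [norm_neg]; exact g2 l hl))
    (fun l hl => by rw [dd_add, dd_neg, g3 l hl, add_neg_cancel])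
  refine ⟨fun x => f [x], f1 [] [] rfl, fun x => ?_, fun x y => ?_⟩
  · refine (f2 [x] rfl).trans ?_
    simp only [np, List.map_cons, List.map_nil, List.prod_cons, List.prod_nil, mul_one]
    refine mul_le_mul_of_nonneg_right ?_ (norm_nonneg _)
    have : 0 ≤ K1 * K2 := by positivity
    nlinarith
  · have e := f3 [x, y] rfl
    have e' := g2 [x, y] rfl
    simp only [φ, np, dd, lam, del, List.getD_cons_zero, List.getD_cons_succ, List.map_cons,
        List.map_nil, List.prod_cons, List.prod_nil, mul_one] at e e'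
    have : c x y - (x * f [y] - f [x * y] + f [x] * y) = g [x, y] := by
      linear_combination (norm := abel) -e
    rw [this]
    refine e'.trans (mul_le_mul_of_nonneg_right ?_ (by positivity))
    have : 0 ≤ K1 * K2 := by positivity
    nlinarith

end Crest.Agent.KS
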