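import Crest.Agent.GEN.VN

/-! Direct sums of von Neumann algebras. -/

set_option autoImplicit false
open scoped InnerProductSpace ENNReal

namespace Crest.Agent.KS
open Crest.Agent.GEN

universe u

section
variable {H : ℕ → Type u} [∀ k, NormedAddCommGroup (H k)] [∀ k, InnerProductSpace ℂ (H k)]
  [∀ k, CompleteSpace (H k)]

/-- block diagonal with blocks `x` -/
def IsDg (T : lp H 2 →L[ℂ] lp H 2) (x : ∀ k, H k →L[ℂ] H k) : Prop :=
  ∀ v k, T v k = x k (v k)

omit [∀ k, CompleteSpace (H k)] in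
lemma exists_dg (x : ∀ k, H k →L[ℂ] H k) {B : ℝ} (hB : 0 ≤ B) (h : ∀ k, ‖x k‖ ≤ B) :
    ∃ T : lp H 2 →L[ℂ] lp H 2, ‖T‖ ≤ B ∧ IsDg T x :=
  ⟨lp.mapCLM 2 x hB h, lp.norm_mapCLM_le _ _ _ _, fun _ _ => rfl⟩

omit [∀ k, CompleteSpace (H k)] in
lemma IsDg.mul {S T : lp H 2 →L[ℂ] lp H 2} {x y : ∀ k, H k →L[ℂ] H k} (h : IsDg S x)
    (h' : IsDg T y) : IsDg (S * T) (fun k => x k * y k) := fun v k => by
  change S (T v) k = x k (y k (v k))
  rw [h, h']

omit [∀ k, CompleteSpace (H k)] in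
lemma IsDg.ext {S T : lp H 2 →L[ℂ] lp H 2} {x : ∀ k, H k →L[ℂ] H k} (h : IsDg S x)
    (h' : IsDg T x) : S = T := by
  ext v k
  rw [h, h']

lemma IsDg.star {T : lp H 2 →L[ℂ] lp H 2} {x : ∀ k, H k →L[ℂ] H k} (h : IsDg T x) :
    IsDg (star T) (fun k => star (x k)) := fun v k => by
  classical
  refine ext_inner_left ℂ fun w => ?_
  beta_reduce
  rw [← lp.inner_single_left, ContinuousLinearMap.star_eq_adjoint,
    ContinuousLinearMap.adjoint_inner_right, ContinuousLinearMap.star_eq_adjoint,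
    ContinuousLinearMap.adjoint_inner_right]
  have : T (lp.single 2 k w) = lp.single 2 k (x k w) := by
    ext i
    rw [h]
    by_cases hi : i = k
    · subst hi; simp [lp.single_apply_self]
    · simp [lp.single_apply, Pi.single_eq_of_ne hi]
  rw [this, lp.inner_single_left]

/-- the block -/
noncomputable def blk (T : lp H 2 →L[ℂ] lp H 2) (k : ℕ) : H k →L[ℂ] H k :=
  lp.evalCLM ℂ H 2 k ∘L T ∘L lp.singleContinuousLinearMap ℂ H 2 k

omit [∀ k, CompleteSpace (H k)] in
lemma blk_apply (T : lp H 2 →L[ℂ] lp H 2) (k : ℕ) (w : H k) :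
    blk T k w = T (lp.single 2 k w) k := rfl

omit [∀ k, CompleteSpace (H k)] in
lemma IsDg.blk_eq {T : lp H 2 →L[ℂ] lp H 2} {x : ∀ k, H k →L[ℂ] H k} (h : IsDg T x) (k : ℕ) :
    blk T k = x k := by
  ext w
  rw [blk_apply, h]
  simp [lp.single_apply_self]

omit [∀ k, CompleteSpace (H k)] in
lemma norm_blk_le (T : lp H 2 →L[ℂ] lp H 2) (k : ℕ) : ‖blk T k‖ ≤ ‖T‖ := by
  refine ContinuousLinearMap.opNorm_le_bound _ T.opNorm_nonneg fun w => ?_
  rw [blk_apply]
  refine (lp.norm_apply_le_norm (by norm_num) _ k).trans ((T.le_opNorm _).trans ?_)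
  rw [lp.norm_single (by norm_num)]

variable (M : ∀ k, VonNeumannAlgebra (H k))

/-- diagonal operators with blocks in the commutants -/
def dgS : StarSubalgebra ℂ (lp H 2 →L[ℂ] lp H 2) where
  carrier := {T | ∃ x : ∀ k, H k →L[ℂ] H k, (∀ k, x k ∈ (M k).commutant) ∧ IsDg T x}
  mul_mem' := by
    rintro _ _ ⟨x, hx, h⟩ ⟨y, hy, h'⟩
    exact ⟨_, fun k => mul_mem (hx k) (hy k), h.mul h'⟩
  add_mem' := by
    rintro S T ⟨x, hx, h⟩ ⟨y, hy, h'⟩
    refine ⟨fun k => x k + y k, fun k => add_mem (hx k) (hy k), fun v k => ?_⟩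
    change (S v + T v) k = _
    rw [lp.coeFn_add, Pi.add_apply, h, h']; rfl
  algebraMap_mem' := fun c =>
    ⟨fun k => algebraMap ℂ _ c, fun k => (M k).commutant.toStarSubalgebra.algebraMap_mem c,
      fun v k => by simp [Algebra.algebraMap_eq_smul_one]⟩
  star_mem' := by
    rintro _ ⟨x, hx, h⟩
    exact ⟨_, fun k => star_mem (hx k), h.star⟩

lemma mem_ds {T : lp H 2 →L[ℂ] lp H 2} :
    T ∈ vnComm (dgS M) ↔ ∃ x : ∀ k, H k →L[ℂ] H k, (∀ k, x k ∈ M k) ∧ IsDg T x := by
  classical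
  rw [mem_vnComm]
  constructor
  · intro h
    have key : ∀ (k : ℕ) (y : H k →L[ℂ] H k), y ∈ (M k).commutant → ∀ v,
        y (T v k) = blk T k (y (v k)) := by
      intro k y hy v
      obtain ⟨S, -, hS⟩ := exists_dg (H := H) (Function.update (fun _ => 0) k y) (norm_nonneg y)
        (fun i => by
          by_cases hi : i = k
          · subst hi; simp
          · simp [Function.update_of_ne hi])
      have h1 := h S ⟨_, fun i => by
          by_cases hi : i = k
          · subst hi; simpa using hy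
          · simp [Function.update_of_ne hi, zero_mem], hS⟩
      have h2 := congrArg (fun A : lp H 2 →L[ℂ] lp H 2 => A v k) h1
      simp only [ContinuousLinearMap.mul_apply] at h2
      rw [hS] at h2
      have h3 : S v = lp.single 2 k (y (v k)) := by
        ext i
        rw [hS]
        by_cases hi : i = k
        · subst hi; simp [lp.single_apply_self]
        · simp [Function.update_of_ne hi, lp.single_apply, Pi.single_eq_of_ne hi]
      rw [h3] at h2
      simpa [blk_apply] using h2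
    refine ⟨blk T, fun k => ?_, fun v k => by simpa using key k 1 (one_mem _) v⟩
    rw [vn_mem_iff]
    intro y hy
    ext w
    have := key k y hy (lp.single 2 k w)
    simpa [blk_apply, lp.single_apply_self] using this
  · rintro ⟨x, hx, h⟩ S ⟨y, hy, h'⟩
    refine (h'.mul h).ext ?_
    convert h.mul h' using 2 with k
    exact (vn_mem_iff _ _).1 (hx k) _ (hy k)

theorem ds : ∃ (P : VonNeumannAlgebra (lp H 2))
    (π : ∀ k, P.toStarSubalgebra →ₗ[ℂ] (M k).toStarSubalgebra)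
    (j : ∀ k, (M k).toStarSubalgebra →ₗ[ℂ] P.toStarSubalgebra),
    (∀ k x y, π k (x * y) = π k x * π k y) ∧ (∀ k x, ‖π k x‖ ≤ ‖x‖) ∧
    (∀ k x, π k (j k x) = x) ∧ (∀ k x y, j k (x * y) = j k x * j k y) ∧ (∀ k x, ‖j k x‖ ≤ ‖x‖) ∧
    (∀ x y, (∀ k, π k x = π k y) → x = y) ∧
    ∀ (x : ∀ k, (M k).toStarSubalgebra) (B : ℝ), 0 ≤ B → (∀ k, ‖x k‖ ≤ B) →
      ∃ X, ‖X‖ ≤ B ∧ ∀ k, π k X = x k := by
  classical
  have hd : ∀ X : (vnComm (dgS M)).toStarSubalgebra, IsDg X.1 (blk X.1) ∧ ∀ k, blk X.1 k ∈ M k :=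
    fun X => by
      obtain ⟨x, hx, h⟩ := (mem_ds M).1 X.2
      have : blk X.1 = x := funext h.blk_eq
      rw [this]; exact ⟨h, hx⟩
  let π : ∀ k, (vnComm (dgS M)).toStarSubalgebra →ₗ[ℂ] (M k).toStarSubalgebra := fun k =>
    { toFun := fun X => ⟨blk X.1 k, (hd X).2 k⟩
      map_add' := fun X Y => Subtype.ext (by ext w; simp [blk_apply])
      map_smul' := fun c X => Subtype.ext (by ext w; simp [blk_apply]) }
  have hπ : ∀ k X, (π k X : H k →L[ℂ] H k) = blk X.1 k := fun _ _ => rfl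
  have hext : ∀ x y, (∀ k, π k x = π k y) → x = y := fun x y h => Subtype.ext (by
    refine (hd x).1.ext ?_
    have : blk x.1 = blk y.1 := funext fun k => congrArg Subtype.val (h k)
    rw [this]; exact (hd y).1)
  have hglue : ∀ (x : ∀ k, (M k).toStarSubalgebra) (B : ℝ), 0 ≤ B → (∀ k, ‖x k‖ ≤ B) →
      ∃ X, ‖X‖ ≤ B ∧ ∀ k, π k X = x k := fun x B hB h => by
    obtain ⟨T, h1, h2⟩ := exists_dg (fun k => (x k : H k →L[ℂ] H k)) hB h
    exact ⟨⟨T, (mem_ds M).2 ⟨_, fun k => (x k).2, h2⟩⟩, h1, fun k => Subtype.ext (h2.blk_eq k)⟩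
  have hmul : ∀ k x y, π k (x * y) = π k x * π k y := fun k x y =>
    Subtype.ext (((hd x).1.mul (hd y).1).blk_eq k)
  have hj : ∀ k (x : (M k).toStarSubalgebra), ∃ X, ‖X‖ ≤ ‖x‖ ∧
      ∀ i, π i X = Function.update (fun i => (0 : (M i).toStarSubalgebra)) k x i := fun k x =>
    hglue _ _ (norm_nonneg x) fun i => by
      by_cases hi : i = k
      · subst hi; simp
      · simp [Function.update_of_ne hi]
  choose j0 j1 j2 using hj
  have j3 : ∀ k x, π k (j0 k x) = x := fun k x => by simp [j2]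
  have j4 : ∀ k x i, i ≠ k → π i (j0 k x) = 0 := fun k x i hi => by
    simp [j2, Function.update_of_ne hi]
  let j : ∀ k, (M k).toStarSubalgebra →ₗ[ℂ] (vnComm (dgS M)).toStarSubalgebra := fun k =>
    { toFun := j0 k
      map_add' := fun x y => hext _ _ fun i => by
        by_cases hi : i = k
        · subst hi; simp [j3]
        · simp [j4 _ _ _ hi]
      map_smul' := fun c x => hext _ _ fun i => by
        by_cases hi : i = k
        · subst hi; simp [j3]
        · simp [j4 _ _ _ hi] }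
  refine ⟨_, π, j, hmul, fun k x => norm_blk_le _ _, j3, fun k x y => hext _ _ fun i => ?_, j1,
    hext, hglue⟩
  change π i (j0 k _) = π i (j0 k x * j0 k y)
  by_cases hi : i = k
  · subst hi; simp [hmul, j3]
  · simp [hmul, j4 _ _ _ hi]

end

end Crest.Agent.KS
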