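import Crest.Agent.H0164.C1
import Crest.Agent.S0165

/-! A `*`-homomorphism close to the inclusion is implemented by a unitary close to `1`. -/

set_option autoImplicit false
open scoped InnerProductSpace

namespace Crest.Agent.KS
open Crest.Agent.H0164 Crest.Agent.H0164.C1 Crest.Agent.H0164.C2

universe u

section
variable {K : Type u} [NormedAddCommGroup K] [InnerProductSpace ℂ K] [CompleteSpace K]

lemma comm_bicomm {A : Type*} [CStarAlgebra A] (ρ : A →⋆ₐ[ℂ] (K →L[ℂ] K)) {Y : K →L[ℂ] K}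
    (hY : star Y = Y) (hY2 : Y * Y = 1) {g : ℝ} (hg : 0 ≤ g)
    (h : ∀ a, ‖Y * ρ a - ρ a * Y‖ ≤ g * ‖a‖) (x : K →L[ℂ] K)
    (hx : ∀ b : K →L[ℂ] K, (∀ a, ρ a * b = b * ρ a) → b * x = x * b) :
    ‖(1 - Y) * x * (1 + Y)‖ ≤ 16 * g * ‖x‖ := by
  let T : K →L[ℂ] K := star (1 - Y) * (1 - Y) + algebraMap ℝ _ (g ^ 2)
  have hT : IsSelfAdjoint T :=
    (IsSelfAdjoint.star_mul_self _).add (IsSelfAdjoint.algebraMap _ (IsSelfAdjoint.all _))
  have hq : ∀ v, qf T v = ‖(1 - Y) v‖ ^ 2 + g ^ 2 * ‖v‖ ^ 2 := fun v => by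
    rw [qf_add, qf_alg, A3.norm_sq_eq (1 - Y) v]; rfl
  have hn : ‖1 + Y‖ ≤ 2 := by
    have := A3.norm_le_one_of_unitary (w := Y) (by rw [hY, hY2])
    have h1 : ‖(1 : K →L[ℂ] K)‖ ≤ 1 := ContinuousLinearMap.norm_id_le
    linarith [norm_add_le 1 Y]
  have key := kap ρ hT (κ := 2) (fun v => by rw [hq]; positivity) (fun a v => by
    rw [hq, hq]
    have n1 : ‖ρ a‖ ≤ ‖a‖ := NonUnitalStarAlgHom.norm_apply_le ρ a
    have e : (1 - Y) (ρ a v) = ρ a ((1 - Y) v) - (Y * ρ a - ρ a * Y) v := by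
      simp
    have a1 : ∀ w, ‖ρ a w‖ ≤ ‖a‖ * ‖w‖ := fun w => ((ρ a).le_opNorm w).trans (by gcongr)
    have a2 : ‖(1 - Y) (ρ a v)‖ ≤ ‖a‖ * (‖(1 - Y) v‖ + g * ‖v‖) := by
      rw [e]
      refine (norm_sub_le_of_le (a1 _) ((ContinuousLinearMap.le_opNorm _ v).trans
        (mul_le_mul_of_nonneg_right (h a) (norm_nonneg v)))).trans (le_of_eq (by ring))
    have a3 := pow_le_pow_left₀ (norm_nonneg _) a2 2
    have a4 := mul_le_mul_of_nonneg_left (pow_le_pow_left₀ (norm_nonneg _) (a1 v) 2) (sq_nonneg g)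
    have a5 := mul_nonneg (sq_nonneg ‖a‖) (sq_nonneg (‖(1 - Y) v‖ - g * ‖v‖))
    have a6 := mul_nonneg (sq_nonneg ‖a‖) (sq_nonneg ‖(1 - Y) v‖)
    have a7 := mul_nonneg (sq_nonneg ‖a‖) (sq_nonneg (g * ‖v‖))
    nlinarith) x hx
  refine ContinuousLinearMap.opNorm_le_bound _ (by positivity) fun w => ?_
  have k := key ((1 + Y) w)
  have e : (1 - Y) ((1 + Y) w) = 0 := by
    rw [← mul_apply_eq_comp, sub_mul, mul_add, mul_add, hY2]; simp [add_comm]
  rw [hq, hq, e, norm_zero] at k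
  have a1 : ‖(1 + Y) w‖ ≤ 2 * ‖w‖ := (ContinuousLinearMap.le_opNorm _ w).trans (by gcongr)
  refine (abs_le_of_sq_le_sq' ?_ (by positivity)).2
  change ‖(1 - Y) (x ((1 + Y) w))‖ ^ 2 ≤ _
  have a2 := mul_le_mul_of_nonneg_left (pow_le_pow_left₀ (norm_nonneg _) a1 2)
    (sq_nonneg (g * ‖x‖))
  have a3 := mul_nonneg (sq_nonneg g) (sq_nonneg ‖x ((1 + Y) w)‖)
  nlinarith

end

theorem ads_sym : ∃ C : ℝ, 0 ≤ C ∧ ∀ (K : Type u) [NormedAddCommGroup K] [InnerProductSpace ℂ K]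
    [CompleteSpace K] (A : Type u) [CStarAlgebra A] (ρ : A →⋆ₐ[ℂ] (K →L[ℂ] K)) (Y : K →L[ℂ] K)
    (g : ℝ), star Y = Y → Y * Y = 1 → 0 ≤ g → (∀ a, ‖Y * ρ a - ρ a * Y‖ ≤ g * ‖a‖) →
    ∃ Y₀ : K →L[ℂ] K, (∀ a, ρ a * Y₀ = Y₀ * ρ a) ∧ ‖Y - Y₀‖ ≤ C * g := by
  obtain ⟨C, hC, h⟩ := ad.{u} Crest.Agent.S0165.result
  refine ⟨C * 16, by positivity, fun K _ _ _ A _ ρ Y g hY hY2 hg hρ => ?_⟩
  let Q : VonNeumannAlgebra K :=
    { toStarSubalgebra := StarSubalgebra.centralizer ℂ (Set.range ρ)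
      centralizer_centralizer' := by simp }
  have hQ : ∀ b : K →L[ℂ] K, b ∈ Q ↔ ∀ a, ρ a * b = b * ρ a := fun b => by
    change b ∈ StarSubalgebra.centralizer ℂ (Set.range ρ) ↔ _
    rw [StarSubalgebra.mem_centralizer_iff]
    constructor
    · intro hb a
      exact (hb _ ⟨a, rfl⟩).1
    · rintro hb _ ⟨a, rfl⟩
      exact ⟨hb a, by rw [← map_star]; exact hb _⟩
  have k : ∀ x ∈ Q.commutant, ‖(1 - Y) * x * (1 + Y)‖ ≤ 16 * g * ‖x‖ := fun x hx =>
    comm_bicomm ρ hY hY2 hg hρ x fun b hb =>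
      VonNeumannAlgebra.mem_commutant_iff.1 hx b ((hQ b).2 hb)
  obtain ⟨Y₀, -, h2, h3⟩ := h K Q.commutant Y (16 * g) hY (by positivity) fun x hx => by
    have a1 := k x hx
    have a2 := k _ (star_mem hx)
    rw [← norm_star, norm_star x] at a2
    simp only [star_mul, star_add, star_sub, star_one, star_star, hY] at a2
    have : (2 : ℂ) • (Y * x - x * Y) = (1 + Y) * (x * (1 - Y)) - (1 - Y) * x * (1 + Y) := by
      rw [two_smul]; noncomm_ring
    have a3 := norm_sub_le_of_le a2 a1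
    rw [← this, norm_smul] at a3
    norm_num at a3
    linarith
  refine ⟨Y₀, fun a => h2 _ ?_, by rwa [mul_assoc]⟩
  rw [VonNeumannAlgebra.mem_commutant_iff]
  intro b hb
  exact ((hQ b).1 hb a).symm

section
variable {H : Type u} [NormedAddCommGroup H] [InnerProductSpace ℂ H] [CompleteSpace H]

/-- twisted block operator -/
noncomputable def bk (x : Fin 2 → H →L[ℂ] H) (σ : Fin 2 → Fin 2) :
    PiLp 2 (fun _ : Fin 2 => H) →L[ℂ] PiLp 2 (fun _ : Fin 2 => H) :=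
  (PiLp.continuousLinearEquiv 2 ℂ (fun _ : Fin 2 => H)).symm.toContinuousLinearMap ∘L
    ContinuousLinearMap.pi (fun i => x i ∘L PiLp.proj 2 (fun _ : Fin 2 => H) (σ i))

omit [CompleteSpace H] in
@[simp] lemma bk_apply (x : Fin 2 → H →L[ℂ] H) (σ : Fin 2 → Fin 2)
    (v : PiLp 2 (fun _ : Fin 2 => H)) (i : Fin 2) : bk x σ v i = x i (v (σ i)) := rfl

omit [CompleteSpace H] in
lemma norm_ent_le (T : PiLp 2 (fun _ : Fin 2 => H) →L[ℂ] PiLp 2 (fun _ : Fin 2 => H))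
    (i j : Fin 2) : ‖A3.ent T i j‖ ≤ ‖T‖ := by
  refine ContinuousLinearMap.opNorm_le_bound _ T.opNorm_nonneg fun ξ => ?_
  rw [A3.ent_apply]
  refine (PiLp.norm_apply_le _ i).trans ((T.le_opNorm _).trans (le_of_eq ?_))
  congr 1
  rw [← sq_eq_sq₀ (norm_nonneg _) (norm_nonneg _), PiLp.norm_sq_eq_of_L2]
  fin_cases j <;> simp [mxInc_apply]

lemma polar_near {S : H →L[ℂ] H} {ε : ℝ} (hε : ε ≤ 1 / 8) (h : ‖S - 1‖ ≤ ε) :
    ∃ u ∈ unitary (H →L[ℂ] H), ‖u - 1‖ ≤ 8 * ε ∧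
      ∃ r, u = S * r ∧ ∀ x, Commute (star S * S) x → Commute r x := by
  have h0 : 0 ≤ ε := (norm_nonneg _).trans h
  have h1 : ‖(1 : H →L[ℂ] H)‖ ≤ 1 := ContinuousLinearMap.norm_id_le
  have nS : ‖S‖ ≤ 1 + ε := by
    have := norm_add_le (S - 1) 1
    rw [sub_add_cancel] at this
    linarith
  set a := star S * S with ha
  have sa : IsSelfAdjoint a := IsSelfAdjoint.star_mul_self S
  have na : ‖a - 1‖ ≤ 3 * ε := by
    have e : a - 1 = star (S - 1) * S + (S - 1) := by rw [ha, star_sub, star_one]; noncomm_ring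
    rw [e]
    refine (norm_add_le_of_le ((norm_mul_le _ _).trans
      (mul_le_mul (by rwa [norm_star]) nS (norm_nonneg _) h0)) h).trans ?_
    nlinarith
  have sp : ∀ l ∈ spectrum ℝ a, |l - 1| ≤ 3 * ε := fun l hl => by
    rcases subsingleton_or_nontrivial (H →L[ℂ] H) with hs | hs
    · simp at hl
    have : l - 1 ∈ spectrum ℝ (a - 1) := by
      have := spectrum.sub_singleton_eq (R := ℝ) a 1
      rw [map_one] at this
      rw [← this]
      exact ⟨l, hl, 1, rfl, rfl⟩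
    exact (spectrum.norm_le_norm_of_mem this).trans na
  have sp' : ∀ l ∈ spectrum ℝ a, 1 / 2 ≤ √l := fun l hl =>
    Real.le_sqrt_of_sq_le (by linarith [(abs_le.1 (sp l hl)).1])
  have hc : ContinuousOn (fun l : ℝ => (√l)⁻¹) (spectrum ℝ a) :=
    ContinuousOn.inv₀ (by fun_prop) fun l hl => by linarith [sp' l hl]
  set r := cfc (fun l : ℝ => (√l)⁻¹) a with hr
  have rsa : IsSelfAdjoint r := cfc_predicate _ _
  have rar : r * a * r = 1 := by
    have e : r * a = cfc (fun l : ℝ => (√l)⁻¹ * l) a := by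
      rw [cfc_mul _ _ a hc (by fun_prop), cfc_id' ℝ a]
    rw [e, hr, ← cfc_mul (fun l : ℝ => (√l)⁻¹ * l) _ a (hc.mul continuousOn_id) hc,
      ← cfc_const_one ℝ a]
    refine cfc_congr fun l hl => ?_
    have := sp' l hl
    have h2 := Real.mul_self_sqrt (x := l) (by linarith [(abs_le.1 (sp l hl)).1])
    have h3 : √l ≠ 0 := by linarith
    field_simp
    linarith
  have nr : ‖r - 1‖ ≤ 6 * ε := by
    have e : r - 1 = cfc (fun l : ℝ => (√l)⁻¹ - 1) a := by
      rw [cfc_sub _ _ a hc (by fun_prop), cfc_const_one ℝ a]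
    rw [e]
    refine norm_cfc_le (by positivity) fun l hl => ?_
    have k1 := sp' l hl
    have k2 := abs_le.1 (sp l hl)
    have h2 := Real.mul_self_sqrt (x := l) (by linarith)
    have h3 : 0 < √l := by linarith
    have e2 : (√l)⁻¹ - 1 = (1 - l) / (√l * (1 + √l)) := by
      field_simp
      linarith
    rw [e2, Real.norm_eq_abs, abs_div, abs_sub_comm, div_le_iff₀ (by positivity),
      abs_of_pos (a := √l * (1 + √l)) (by positivity)]
    have : 1 / 2 ≤ √l * (1 + √l) := by nlinarith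
    nlinarith [sp l hl]
  have nu : ‖S * r - 1‖ ≤ 8 * ε := by
    have e : S * r - 1 = S * (r - 1) + (S - 1) := by noncomm_ring
    rw [e]
    refine (norm_add_le_of_le ((norm_mul_le _ _).trans
      (mul_le_mul nS nr (norm_nonneg _) (by positivity))) h).trans ?_
    nlinarith
  have u1 : star (S * r) * (S * r) = 1 := by
    rw [star_mul, rsa.star_eq, ← rar, ha]; noncomm_ring
  have hS : IsUnit S := by
    rcases subsingleton_or_nontrivial (H →L[ℂ] H) with hs | hs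
    · exact isUnit_of_subsingleton _
    have := (Units.oneSub (1 - S) (by rw [norm_sub_rev]; linarith)).isUnit
    simpa using this
  have hr' : IsUnit r := isUnit_iff_exists.2 ⟨r * a, by
    have : Commute a r := (Commute.refl a).cfc_real _ |>.symm
    rw [← this.eq, ← mul_assoc, rar], rar⟩
  obtain ⟨v, hv⟩ := (hS.mul hr').exists_right_inv
  refine ⟨S * r, ⟨u1, ?_⟩, nu, r, rfl, fun x hx => hx.cfc_real _⟩
  have : star (S * r) = v := by rw [← mul_one (star _), ← hv, ← mul_assoc, u1, one_mul]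
  rw [this, hv]

end

theorem spat : ∃ C : ℝ, 1 ≤ C ∧ ∀ (H : Type u) [NormedAddCommGroup H] [InnerProductSpace ℂ H]
    [CompleteSpace H] (A : Type u) [CStarAlgebra A] (ι θ : A →⋆ₐ[ℂ] (H →L[ℂ] H)) (ε : ℝ),
    0 ≤ ε → C * ε ≤ 1 → (∀ x, ‖θ x - ι x‖ ≤ ε * ‖x‖) →
    ∃ u ∈ unitary (H →L[ℂ] H), ‖u - 1‖ ≤ C * ε ∧ ∀ x, θ x = u * ι x * star u := by
  obtain ⟨C, hC, h⟩ := ads_sym.{u}
  refine ⟨8 * C + 1, by linarith, fun H _ _ _ A _ ι θ ε hε hε' hθ => ?_⟩
  let ρ : A →⋆ₐ[ℂ] (PiLp 2 (fun _ : Fin 2 => H) →L[ℂ] PiLp 2 (fun _ : Fin 2 => H)) :=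
    { toFun := fun a => bk ![ι a, θ a] id
      map_one' := by ext v i; fin_cases i <;> simp
      map_mul' := fun a b => by ext v i; fin_cases i <;> simp
      map_zero' := by ext v i; fin_cases i <;> simp
      map_add' := fun a b => by ext v i; fin_cases i <;> simp
      commutes' := fun c => by
        ext v i; fin_cases i <;> simp [Algebra.algebraMap_eq_smul_one]
      map_star' := fun a => by
        rw [ContinuousLinearMap.star_eq_adjoint, ContinuousLinearMap.eq_adjoint_iff]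
        intro v w
        simp [PiLp.inner_apply, map_star, ContinuousLinearMap.star_eq_adjoint,
          ContinuousLinearMap.adjoint_inner_left] }
  have hρ : ∀ a, ρ a = bk ![ι a, θ a] id := fun _ => rfl
  obtain ⟨Y₀, h1, h2⟩ := h _ A ρ (bk (fun _ => 1) ![1, 0]) ε
    (by
      symm
      rw [ContinuousLinearMap.star_eq_adjoint, ContinuousLinearMap.eq_adjoint_iff]
      intro v w
      simp [PiLp.inner_apply, add_comm])
    (by ext v i; fin_cases i <;> simp) hε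
    (fun a => A3.norm_le_of_sq _ (by positivity) fun v => by
      have k : ∀ w, ‖θ a w - ι a w‖ ^ 2 ≤ (ε * ‖a‖) ^ 2 * ‖w‖ ^ 2 := fun w => by
        rw [← mul_pow]
        exact pow_le_pow_left₀ (norm_nonneg _) (((θ a - ι a).le_opNorm w).trans
          (mul_le_mul_of_nonneg_right (hθ a) (norm_nonneg w))) 2
      have k0 := k (v 0)
      have k1 := k (v 1)
      rw [norm_sub_rev] at k0
      simp [hρ]
      linarith)
  have hS : ∀ a, θ a * A3.ent Y₀ 1 0 = A3.ent Y₀ 1 0 * ι a := fun a => by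
    ext ξ
    have := congrArg (fun T => T (mxInc 0 ξ) 1) (h1 a)
    have e : ρ a (mxInc 0 ξ) = mxInc 0 (ι a ξ) := by
      ext i; fin_cases i <;> simp [hρ, mxInc_apply]
    simp only [mul_apply_eq_comp, e] at this
    exact this
  have hn : ‖A3.ent Y₀ 1 0 - 1‖ ≤ C * ε := by
    rw [norm_sub_rev]
    refine le_trans (le_of_eq ?_) ((norm_ent_le _ 1 0).trans h2)
    congr 1
  obtain ⟨u, hu, h3, r, h4, h5⟩ := polar_near (by linarith) hn
  refine ⟨u, hu, by linarith, fun x => ?_⟩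
  have c1 : Commute (star (A3.ent Y₀ 1 0) * A3.ent Y₀ 1 0) (ι x) := by
    have := congrArg star (hS (star x))
    simp only [star_mul, map_star, star_star] at this
    rw [Commute, SemiconjBy, mul_assoc, ← hS, ← mul_assoc, this, mul_assoc]
  have : u * ι x = θ x * u := by
    rw [h4, mul_assoc, (h5 _ c1).eq, ← mul_assoc, ← hS, mul_assoc]
  rw [this, mul_assoc, hu.2, mul_one]

end Crest.Agent.KS
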