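import Crest.Agent.KS.RT
import Crest.Agent.KS.Spat
import Crest.Agent.KN.Defs

/-! From the linear lift to S0103. -/

set_option autoImplicit false

namespace Crest.Agent.KS
open Crest.Agent.GEN

universe u

lemma inv_of_near {A B : Type*} [NormedAddCommGroup A] [NormedSpace ℂ A] [CompleteSpace A]
    [NormedAddCommGroup B] [NormedSpace ℂ B] (Φ : A →L[ℂ] B) (h1 : ∀ x, ‖x‖ ≤ 2 * ‖Φ x‖)
    (h2 : ∀ y, ∃ x, ‖y - Φ x‖ ≤ 3 / 4 * ‖y‖) :
    ∃ Ψ : B →L[ℂ] A, (∀ x, Ψ (Φ x) = x) ∧ (∀ y, Φ (Ψ y) = y) ∧ ∀ y, ‖Ψ y‖ ≤ 2 * ‖y‖ := by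
  have ha : AntilipschitzWith 2 Φ := Φ.antilipschitz_of_bound (K := 2) h1
  have hc : IsClosed (LinearMap.range (Φ : A →ₗ[ℂ] B) : Set B) :=
    ha.isClosed_range Φ.uniformContinuous
  have hs : Function.Surjective Φ := by
    by_contra hn
    obtain ⟨y, hy, h⟩ := riesz_lemma hc (by simpa [Function.Surjective] using hn)
      (r := 4 / 5) (by norm_num)
    obtain ⟨x, hx⟩ := h2 y
    have := (h _ ⟨x, rfl⟩).trans hx
    have : y = 0 := norm_le_zero_iff.1 (by linarith)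
    exact hy (this ▸ zero_mem _)
  let e := LinearEquiv.ofBijective (Φ : A →ₗ[ℂ] B) ⟨ha.injective, hs⟩
  have hb : ∀ y, ‖e.symm y‖ ≤ 2 * ‖y‖ := fun y => by
    have := h1 (e.symm y)
    rwa [show Φ (e.symm y) = y from e.apply_symm_apply y] at this
  exact ⟨e.symm.toLinearMap.mkContinuous 2 hb, e.symm_apply_apply, e.apply_symm_apply, hb⟩

lemma abs_n4 {A B E : Type u} [CStarAlgebra A] [CStarAlgebra B] [CStarAlgebra E]
    (ι : A →⋆ₐ[ℂ] E) (κ : B →⋆ₐ[ℂ] E) (hι : ∀ x, ‖ι x‖ = ‖x‖) (hκ : ∀ x, ‖κ x‖ = ‖x‖)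
    {K e : ℝ} (hK : 1 ≤ K) (h : HS A K) (he : 0 < e) (he' : 800 * K ^ 2 * e ≤ 1)
    (hN : ∀ y, ∃ x, ‖κ y - ι x‖ ≤ e * ‖y‖) (L : A →ₗ[ℂ] B) (hL : ∀ x, ‖κ (L x) - ι x‖ ≤ e * ‖x‖) :
    ∃ θ : A →⋆ₐ[ℂ] B, Function.Surjective θ ∧ ∀ x, ‖κ (θ x) - ι x‖ ≤ 49 * K * e * ‖x‖ := by
  have hKe : K * e ≤ 1 / 800 := by nlinarith [mul_pos (zero_lt_one.trans_le hK) he]
  have he1 : e ≤ K * e := by nlinarith
  let L' : A →ₗ[ℂ] B :=
    { toFun := fun x => (2⁻¹ : ℂ) • (L x + star (L (star x)))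
      map_add' := fun x y => by simp only [map_add, star_add, smul_add]; abel
      map_smul' := fun a x => by
        simp only [map_smul, star_smul, star_star, smul_add, RingHom.id_apply, smul_comm a] }
  have l1 : ∀ x, ‖κ (L' x) - ι x‖ ≤ e * ‖x‖ := fun x => by
    have a1 := hL x
    have a2 := hL (star x)
    rw [← norm_star, norm_star x, star_sub, ← map_star ι, star_star, ← map_star κ] at a2
    have : κ (L' x) - ι x = (2⁻¹ : ℂ) • ((κ (L x) - ι x) + (κ (star (L (star x))) - ι x)) := by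
      simp only [L', LinearMap.coe_mk, AddHom.coe_mk, map_smul, map_add]
      module
    rw [this, norm_smul]
    have := norm_add_le_of_le a1 a2
    norm_num at this ⊢
    linarith
  have up : ∀ (x : A) (y : B) (r : ℝ), ‖κ y - ι x‖ ≤ r → ‖y‖ ≤ ‖x‖ + r ∧ ‖x‖ ≤ ‖y‖ + r :=
    fun x y r h => by
      have := abs_le.1 ((abs_norm_sub_norm_le (κ y) (ι x)).trans h)
      rw [hι, hκ] at this
      constructor <;> linarith
  have l2 : ∀ x, ‖L' x‖ ≤ 2 * ‖x‖ := fun x => by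
    nlinarith [(up _ _ _ (l1 x)).1, norm_nonneg x]
  let Φ₀ : A →L[ℂ] B := L'.mkContinuous 2 l2
  have near : ∀ Φ : A →L[ℂ] B, ‖Φ - Φ₀‖ ≤ 12 * K * (4 * e) → ∀ x,
      ‖κ (Φ x) - ι x‖ ≤ 49 * K * e * ‖x‖ := fun Φ hΦ x => by
    have a1 : ‖κ (Φ x) - κ (L' x)‖ ≤ 12 * K * (4 * e) * ‖x‖ := by
      rw [← map_sub, hκ]
      exact ((Φ - Φ₀).le_opNorm x).trans (by gcongr)
    refine (norm_sub_le_norm_sub_add_norm_sub _ (κ (L' x)) _).trans ?_
    nlinarith [l1 x, norm_nonneg x]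
  obtain ⟨θ, t1, t2, t3, t4⟩ := rt hK h Φ₀ (η := 4 * e) (by positivity) (by linarith)
    ⟨fun x => by
      change L' (star x) = star (L' x)
      simp [L', add_comm], fun x y => by
      change ‖L' x * L' y - L' (x * y)‖ ≤ _
      have : κ (L' x * L' y - L' (x * y)) = (κ (L' x) - ι x) * κ (L' y) + ι x * (κ (L' y) - ι y)
          - (κ (L' (x * y)) - ι (x * y)) := by
        simp only [map_sub, map_mul]; noncomm_ring
      rw [← hκ, this]
      have a1 := (norm_mul_le _ (κ (L' y))).trans (mul_le_mul (l1 x) ((hκ _).trans_le (l2 y))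
        (norm_nonneg _) (by positivity))
      have a2 := (norm_mul_le (ι x) _).trans (mul_le_mul (hι x).le (l1 y)
        (norm_nonneg _) (by positivity))
      have a3 := (l1 (x * y)).trans (mul_le_mul_of_nonneg_left (norm_mul_le x y) he.le)
      exact (norm_sub_le_of_le (norm_add_le_of_le a1 a2) a3).trans (le_of_eq (by ring))⟩
    (fun Φ hΦ => by
      have n4 : ∀ x, ‖κ (Φ x) - ι x‖ ≤ 1 / 4 * ‖x‖ := fun x => (near Φ hΦ x).trans
        (mul_le_mul_of_nonneg_right (by linarith) (norm_nonneg x))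
      obtain ⟨Ψ, k1, k2, k3⟩ := inv_of_near Φ
        (fun x => by linarith [(up _ _ _ (n4 x)).2, norm_nonneg x])
        (fun y => by
          obtain ⟨x, hx⟩ := hN y
          have hx' : ‖κ y - ι x‖ ≤ 1 / 4 * ‖y‖ :=
            hx.trans (mul_le_mul_of_nonneg_right (by linarith) (norm_nonneg y))
          refine ⟨x, ?_⟩
          rw [← hκ, map_sub]
          refine (norm_sub_le_norm_sub_add_norm_sub _ (ι x) _).trans ?_
          rw [norm_sub_rev (ι x)]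
          linarith [n4 x, (up _ _ _ hx').2, norm_nonneg y])
      exact ⟨Ψ, k1, k2, fun x => by linarith [(up _ _ _ (n4 x)).1, norm_nonneg x], k3⟩)
  have t5 : θ 1 = 1 := by
    obtain ⟨z, hz⟩ := t4 1
    rw [← mul_one (θ 1), ← hz, ← t3, one_mul]
  exact ⟨{ toFun := θ, map_one' := t5, map_mul' := t3, map_zero' := map_zero θ,
           map_add' := map_add θ, map_star' := t2,
           commutes' := fun c => by simp [Algebra.algebraMap_eq_smul_one, t5] }, t4, near θ t1⟩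

lemma near_of {H : Type u} [NormedAddCommGroup H] [InnerProductSpace ℂ H] [CompleteSpace H]
    {M N : VonNeumannAlgebra H} {δ : ℝ}
    (h : ∀ x ∈ M, ‖x‖ ≤ 1 → ∃ y ∈ N, ‖y‖ ≤ 1 ∧ ‖x - y‖ < δ) : KN.Near M N δ := by
  intro x hx
  by_cases h0 : x = 0
  · exact ⟨0, zero_mem _, by simp [h0]⟩
  have hp : 0 < ‖x‖ := norm_pos_iff.2 h0
  have hc : ((‖x‖ : ℝ) : ℂ) ≠ 0 := by exact_mod_cast hp.ne'
  obtain ⟨y, hy, -, h2⟩ := h (((‖x‖ : ℝ) : ℂ)⁻¹ • x) (M.toStarSubalgebra.smul_mem hx _)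
    (by simp [norm_smul, hp.ne'])
  refine ⟨((‖x‖ : ℝ) : ℂ) • y, N.toStarSubalgebra.smul_mem hy _, ?_⟩
  have : x - ((‖x‖ : ℝ) : ℂ) • y = ((‖x‖ : ℝ) : ℂ) • (((‖x‖ : ℝ) : ℂ)⁻¹ • x - y) := by
    rw [smul_sub, smul_smul, mul_inv_cancel₀ hc, one_smul]
  rw [this, norm_smul, Complex.norm_real, norm_norm, mul_comm]
  exact mul_le_mul_of_nonneg_right h2.le hp.le

theorem s103 {C δ₀ : ℝ} (hC : 0 ≤ C) (h0 : 0 < δ₀) (h : KN.LIN.{u} C δ₀) : KN.S103.{u} := by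
  intro ε hε
  obtain ⟨K, hK, hH⟩ := hs.{u}
  obtain ⟨D, hD, hS⟩ := spat.{u}
  obtain ⟨e, e0, e1, e2⟩ : ∃ e : ℝ, 0 < e ∧ 800 * K ^ 2 * e ≤ 1 ∧
      D * (49 * K * e) ≤ min 1 (ε / 2) := by
    have p1 : 0 < 800 * K ^ 2 := by positivity
    have p2 : 0 < D * (49 * K) := by positivity
    refine ⟨min (1 / (800 * K ^ 2)) (min 1 (ε / 2) / (D * (49 * K))), by positivity, ?_, ?_⟩
    · rw [← le_div_iff₀' p1]; exact min_le_left _ _
    · rw [← mul_assoc, ← le_div_iff₀' p2]; exact min_le_right _ _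
  refine ⟨min δ₀ (e / (C + 1)), by positivity, fun H _ _ _ M N h1 h2 => ?_⟩
  have d1 : (C + 1) * min δ₀ (e / (C + 1)) ≤ e := by
    rw [← le_div_iff₀' (by positivity)]; exact min_le_right _ _
  have d0 : 0 < min δ₀ (e / (C + 1)) := by positivity
  obtain ⟨L, l1, l2⟩ := h H M N _ d0.le (min_le_left _ _) (near_of h1) (near_of h2)
  obtain ⟨θ, t1, t2⟩ := abs_n4 (A := HH.Al M) (B := HH.Al N) M.toStarSubalgebra.subtype
    N.toStarSubalgebra.subtype (fun _ => rfl) (fun _ => rfl) hK (hH H M) e0 e1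
    (fun y => by
      obtain ⟨x, hx, k⟩ := near_of h2 y.1 y.2
      exact ⟨⟨x, hx⟩, k.trans (mul_le_mul_of_nonneg_right (by nlinarith) (norm_nonneg _))⟩)
    (L.codRestrict N.toStarSubalgebra.toSubalgebra.toSubmodule l1)
    (fun x => (l2 x).trans (mul_le_mul_of_nonneg_right (by nlinarith) (norm_nonneg _)))
  obtain ⟨u, hu, u1, u2⟩ := hS H (HH.Al M) M.toStarSubalgebra.subtype
    (N.toStarSubalgebra.subtype.comp θ) (49 * K * e) (by positivity)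
    (e2.trans (min_le_left _ _)) t2
  refine ⟨u, hu, by linarith [e2.trans (min_le_right _ _)], fun y => ⟨fun hy => ?_, ?_⟩⟩
  · obtain ⟨x, hx⟩ := t1 ⟨y, hy⟩
    exact ⟨x.1, x.2, (congrArg Subtype.val hx).symm.trans (u2 x)⟩
  · rintro ⟨x, hx, rfl⟩
    exact (u2 ⟨x, hx⟩) ▸ (θ ⟨x, hx⟩).2

end Crest.Agent.KS
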