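import Crest.Agent.KS.Coh

/-! Raeburn-Taylor: Newton correction of an almost multiplicative bijection. -/

set_option autoImplicit false
open Filter Topology

namespace Crest.Agent.KS

universe u

lemma iter {E : Type*} [NormedAddCommGroup E] [CompleteSpace E] (Q : E → ℝ → Prop) (x₀ : E)
    {K η₀ : ℝ} (hK : 0 ≤ K) (hη : 0 < η₀)
    (step : ∀ x η, 0 < η → η ≤ η₀ → ‖x - x₀‖ ≤ 2 * K * η₀ → Q x η →
      ∃ x', ‖x' - x‖ ≤ K * η ∧ Q x' (η / 2)) (h0 : Q x₀ η₀) :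
    ∃ (x : E) (s : ℕ → E), Tendsto s atTop (𝓝 x) ∧ ‖x - x₀‖ ≤ 2 * K * η₀ ∧
      ∀ n, Q (s n) (η₀ / 2 ^ n) := by
  have hp : ∀ n : ℕ, 0 < η₀ / 2 ^ n := fun n => by positivity
  have hl : ∀ n : ℕ, η₀ / 2 ^ n ≤ η₀ := fun n => div_le_self hη.le (one_le_pow₀ one_le_two)
  have : ∀ (n : ℕ) (x : {x // ‖x - x₀‖ ≤ 2 * K * (η₀ - η₀ / 2 ^ n) ∧ Q x (η₀ / 2 ^ n)}),
      ∃ y : {x // ‖x - x₀‖ ≤ 2 * K * (η₀ - η₀ / 2 ^ (n + 1)) ∧ Q x (η₀ / 2 ^ (n + 1))},
        ‖y.1 - x.1‖ ≤ K * (η₀ / 2 ^ n) := fun n x => by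
    obtain ⟨y, h1, h2⟩ := step x.1 _ (hp n) (hl n) (x.2.1.trans (by
      have := hp n
      nlinarith)) x.2.2
    refine ⟨⟨y, ?_, by rwa [pow_succ, ← div_div]⟩, h1⟩
    refine (norm_sub_le_norm_sub_add_norm_sub _ x.1 _).trans ?_
    have := x.2.1
    rw [pow_succ, ← div_div]
    linarith
  choose f hf using this
  let s : ∀ n : ℕ, {x // ‖x - x₀‖ ≤ 2 * K * (η₀ - η₀ / 2 ^ n) ∧ Q x (η₀ / 2 ^ n)} := fun n =>
    Nat.rec (motive := fun n => {x // ‖x - x₀‖ ≤ 2 * K * (η₀ - η₀ / 2 ^ n) ∧ Q x (η₀ / 2 ^ n)})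
      ⟨x₀, by simp, by simpa using h0⟩ f n
  have hc : CauchySeq fun n => (s n).1 :=
    cauchySeq_of_le_geometric_two (C := 2 * K * η₀) fun n => by
      rw [dist_comm, dist_eq_norm]
      refine (hf n (s n)).trans (le_of_eq ?_)
      ring
  obtain ⟨x, hx⟩ := cauchySeq_tendsto_of_complete hc
  refine ⟨x, _, hx, ?_, fun n => (s n).2.2⟩
  refine le_of_tendsto' (hx.sub_const x₀).norm fun n => (s n).2.1.trans ?_
  have := hp n
  nlinarith

variable {A B : Type u} [CStarAlgebra A] [CStarAlgebra B]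

/-- star preserving with multiplicative defect `η` -/
def Df (Φ : A →L[ℂ] B) (η : ℝ) : Prop :=
  (∀ x, Φ (star x) = star (Φ x)) ∧ ∀ x y, ‖Φ x * Φ y - Φ (x * y)‖ ≤ η * (‖x‖ * ‖y‖)

lemma hs_star {K : ℝ} (h : HS A K) (c : A → A → A) {η γ : ℝ} (hη : 0 < η) (hγ : 0 < γ)
    (l1 : ∀ x, IsLinearMap ℂ (c x)) (l2 : ∀ y, IsLinearMap ℂ fun x => c x y)
    (b1 : ∀ x y, ‖c x y‖ ≤ η * (‖x‖ * ‖y‖))
    (b2 : ∀ x y z, ‖x * c y z - c (x * y) z + c x (y * z) - c x y * z‖ ≤ γ * (‖x‖ * ‖y‖ * ‖z‖))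
    (hs : ∀ x y, star (c x y) = c (star y) (star x)) :
    ∃ b : A →ₗ[ℂ] A, (∀ x, b (star x) = star (b x)) ∧ (∀ x, ‖b x‖ ≤ K * (η + γ) * ‖x‖) ∧
      ∀ x y, ‖c x y - (x * b y - b (x * y) + b x * y)‖ ≤ K * γ * (‖x‖ * ‖y‖) := by
  obtain ⟨b, hb, h1, h2⟩ := h c η γ hη hγ l1 l2 b1 b2
  have hh : ∀ {p q : A} {r : ℝ}, ‖p‖ ≤ r → ‖q‖ ≤ r → ‖(2⁻¹ : ℂ) • (p + q)‖ ≤ r := by
    intro p q r hp hq
    rw [norm_smul]
    have := norm_add_le p q
    norm_num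
    linarith
  refine ⟨{ toFun := fun x => (2⁻¹ : ℂ) • (b x + star (b (star x)))
            map_add' := fun x y => by simp only [hb.1, star_add, smul_add]; abel
            map_smul' := fun a x => by
              simp only [hb.2, star_smul, star_star, smul_add, RingHom.id_apply, smul_comm a] },
    fun x => by simp [add_comm], fun x => hh (h1 x) (by simpa using h1 (star x)), fun x y => ?_⟩
  have k := h2 (star y) (star x)
  rw [← norm_star, ← hs, norm_star y, norm_star x, mul_comm ‖y‖] at k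
  convert hh (h2 x y) k using 2
  simp only [LinearMap.coe_mk, AddHom.coe_mk, star_sub, star_add, star_mul, star_star,
    mul_smul_comm, smul_mul_assoc, mul_add, add_mul]
  module

lemma step {K : ℝ} (hK : 1 ≤ K) (h : HS A K) (Φ : A →L[ℂ] B) (Ψ : B →L[ℂ] A)
    (h1 : ∀ x, Ψ (Φ x) = x) (h2 : ∀ y, Φ (Ψ y) = y) (nΦ : ∀ x, ‖Φ x‖ ≤ 2 * ‖x‖)
    (nΨ : ∀ y, ‖Ψ y‖ ≤ 2 * ‖y‖) {η : ℝ} (hη : 0 < η) (hη' : 200 * K ^ 2 * η ≤ 1) (hD : Df Φ η) :
    ∃ Φ' : A →L[ℂ] B, ‖Φ' - Φ‖ ≤ 6 * K * η ∧ Df Φ' (η / 2) := by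
  let c : A → A → A := fun x y => Ψ (Φ x * Φ y - Φ (x * y))
  have c1 : ∀ x y, Φ (c x y) = Φ x * Φ y - Φ (x * y) := fun x y => h2 _
  have c2 : ∀ x y, ‖c x y‖ ≤ 2 * η * (‖x‖ * ‖y‖) := fun x y => (nΨ _).trans (by
    have := hD.2 x y
    linarith)
  have inj : ∀ {x y}, Φ x = Φ y → x = y := fun {x y} e => by rw [← h1 x, e, h1]
  have c3 : ∀ x y, c x y = Ψ (Φ x * Φ y) - x * y := fun x y => by simp [c, h1]
  have l1 : ∀ x, IsLinearMap ℂ (c x) := fun x =>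
    ⟨fun y z => by simp only [c3, map_add, mul_add]; abel,
      fun a y => by simp only [c3, map_smul, mul_smul_comm, smul_sub]⟩
  have l2 : ∀ y, IsLinearMap ℂ fun x => c x y := fun y =>
    ⟨fun x z => by simp only [c3, map_add, add_mul]; abel,
      fun a x => by simp only [c3, map_smul, smul_mul_assoc, smul_sub]⟩
  have hKη : K * η ≤ 1 / 200 := by nlinarith [mul_pos (zero_lt_one.trans_le hK) hη]
  have hη1 : η ≤ 1 / 200 := by nlinarith
  obtain ⟨b, bs, b1, b2⟩ := hs_star h c (η := 2 * η) (γ := 8 * η ^ 2) (by positivity)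
    (by positivity) l1 l2 c2
    (fun x y z => by
      have : x * c y z - c (x * y) z + c x (y * z) - c x y * z =
          c (c x y) z - c x (c y z) := by
        rw [c3 (c x y), c3 x (c y z), c1, c1, c3 (x * y), c3 x (y * z)]
        simp only [mul_sub, sub_mul, map_sub, mul_assoc]
        abel
      rw [this]
      refine (norm_sub_le _ _).trans ?_
      have e1 := (c2 (c x y) z).trans (mul_le_mul_of_nonneg_left
        (mul_le_mul_of_nonneg_right (c2 x y) (norm_nonneg z)) (by positivity))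
      have e2 := (c2 x (c y z)).trans (mul_le_mul_of_nonneg_left
        (mul_le_mul_of_nonneg_left (c2 y z) (norm_nonneg x)) (by positivity))
      linarith)
    (fun x y => inj (by rw [hD.1, c1, c1, star_sub, star_mul, ← hD.1, ← hD.1, ← hD.1, star_mul]))
  have b3 : ∀ x, ‖b x‖ ≤ 3 * K * η * ‖x‖ := fun x => (b1 x).trans
    (mul_le_mul_of_nonneg_right (by nlinarith [mul_pos (zero_lt_one.trans_le hK) hη])
      (norm_nonneg _))
  let bL : A →L[ℂ] A := b.mkContinuous _ b3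
  refine ⟨Φ - Φ ∘L bL, ?_, fun x => ?_, fun x y => ?_⟩
  · rw [sub_sub_cancel_left, norm_neg]
    refine ContinuousLinearMap.opNorm_le_bound _ (by positivity) fun x => (nΦ _).trans ?_
    have := b3 x
    change 2 * ‖b x‖ ≤ _
    linarith
  · change Φ (star x) - Φ (b (star x)) = star (Φ x - Φ (b x))
    rw [bs, hD.1, hD.1, star_sub]
  · change ‖(Φ x - Φ (b x)) * (Φ y - Φ (b y)) - (Φ (x * y) - Φ (b (x * y)))‖ ≤ _
    have : (Φ x - Φ (b x)) * (Φ y - Φ (b y)) - (Φ (x * y) - Φ (b (x * y))) =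
        Φ ((c x y - (x * b y - b (x * y) + b x * y)) - c (b x) y - c x (b y) + c (b x) (b y)
          + b x * b y) := by
      simp only [map_sub, map_add, c1, mul_sub, sub_mul]
      abel
    rw [this]
    refine (nΦ _).trans ?_
    have hx := norm_nonneg x
    have hy := norm_nonneg y
    have hxy := mul_nonneg hx hy
    have e0 : ‖b x‖ * ‖b y‖ ≤ 9 * (K * η) ^ 2 * (‖x‖ * ‖y‖) :=
      (mul_le_mul (b3 x) (b3 y) (norm_nonneg _) (by positivity)).trans (le_of_eq (by ring))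
    have e1 := (c2 (b x) y).trans (mul_le_mul_of_nonneg_left
        (mul_le_mul_of_nonneg_right (b3 x) hy) (by positivity))
    have e2 := (c2 x (b y)).trans (mul_le_mul_of_nonneg_left
        (mul_le_mul_of_nonneg_left (b3 y) hx) (by positivity))
    have e3 := (c2 (b x) (b y)).trans (mul_le_mul_of_nonneg_left e0 (by positivity))
    have e4 := (norm_mul_le (b x) (b y)).trans e0
    have e5 := norm_add_le_of_le (norm_add_le_of_le (norm_sub_le_of_le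
      (norm_sub_le_of_le (b2 x y) e1) e2) e3) e4
    refine (mul_le_mul_of_nonneg_left e5 two_pos.le).trans ?_
    have f1 : K * η ^ 2 ≤ K ^ 2 * η ^ 2 := by nlinarith [sq_nonneg η]
    have f2 : K ^ 2 * η ^ 2 ≤ η / 200 := by nlinarith
    have f3 : K ^ 2 * η ^ 2 * η ≤ K ^ 2 * η ^ 2 := by nlinarith [sq_nonneg (K * η)]
    have : 2 * (K * (8 * η ^ 2) + 12 * K * η ^ 2 + 18 * (K ^ 2 * η ^ 2 * η) + 9 * (K ^ 2 * η ^ 2))
        ≤ η / 2 := by nlinarith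
    refine le_trans (le_of_eq ?_) (mul_le_mul_of_nonneg_right this hxy)
    ring

theorem rt {K : ℝ} (hK : 1 ≤ K) (h : HS A K) (Φ₀ : A →L[ℂ] B) {η : ℝ} (hη : 0 < η)
    (hη' : 200 * K ^ 2 * η ≤ 1) (hD : Df Φ₀ η)
    (hinv : ∀ Φ : A →L[ℂ] B, ‖Φ - Φ₀‖ ≤ 12 * K * η → ∃ Ψ : B →L[ℂ] A, (∀ x, Ψ (Φ x) = x) ∧
      (∀ y, Φ (Ψ y) = y) ∧ (∀ x, ‖Φ x‖ ≤ 2 * ‖x‖) ∧ ∀ y, ‖Ψ y‖ ≤ 2 * ‖y‖) :
    ∃ θ : A →L[ℂ] B, ‖θ - Φ₀‖ ≤ 12 * K * η ∧ (∀ x, θ (star x) = star (θ x)) ∧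
      (∀ x y, θ (x * y) = θ x * θ y) ∧ Function.Surjective θ := by
  obtain ⟨θ, s, hs, h1, h2⟩ := iter (K := 6 * K) Df Φ₀ (by positivity) hη
    (fun Φ e he he' hΦ hQ => by
      obtain ⟨Ψ, k1, k2, k3, k4⟩ := hinv Φ (by linarith)
      exact step hK h Φ Ψ k1 k2 k3 k4 he
        ((mul_le_mul_of_nonneg_left he' (by positivity)).trans hη') hQ) hD
  have ht : ∀ x, Tendsto (fun n => s n x) atTop (𝓝 (θ x)) := fun x =>
    ((ContinuousLinearMap.apply ℂ B x).continuous.tendsto θ).comp hs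
  obtain ⟨Ψ, -, k2, -⟩ := hinv θ (by linarith)
  refine ⟨θ, by linarith, fun x => tendsto_nhds_unique (ht _) ?_, fun x y => ?_,
    fun y => ⟨_, k2 y⟩⟩
  · simpa only [(h2 _).1] using (ht x).star
  · have t1 := (((ht x).mul (ht y)).sub (ht (x * y))).norm
    have t2 : Tendsto (fun n : ℕ => η / 2 ^ n * (‖x‖ * ‖y‖)) atTop (𝓝 (0 * (‖x‖ * ‖y‖))) :=
      (tendsto_const_nhds.div_atTop (tendsto_pow_atTop_atTop_of_one_lt one_lt_two)).mul_const _
    have := le_of_tendsto_of_tendsto' t1 t2 fun n => (h2 n).2 x y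
    rw [zero_mul, norm_le_zero_iff, sub_eq_zero] at this
    exact this.symm

end Crest.Agent.KS
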