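import Crest.Agent.H0112.Calc

/-! Rieffel–van Daele modular theory, part A: a standard real subspace `K` (given by its real
orthogonal projection `P`) yields `E = (P+Q)/2`, `A = P - Q`, `T`, `J` and the calculus of `log Δ`. -/

set_option autoImplicit false

namespace Crest.Agent.KS

open Crest.OpAlg Filter Topology Complex unitInterval
open scoped BoundedContinuousFunction InnerProductSpace ComplexConjugate

variable {H : Type*} [NormedAddCommGroup H] [InnerProductSpace ℂ H] [CompleteSpace H]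

/-- A standard real subspace, through its real orthogonal projection. -/
structure SSub (H : Type*) [NormedAddCommGroup H] [InnerProductSpace ℂ H] where
  P : H →L[ℝ] H
  idem : ∀ x, P (P x) = P x
  symm : ∀ x y, (⟪P x, y⟫_ℂ).re = (⟪x, P y⟫_ℂ).re
  sep : ∀ x, P x = x → P (Complex.I • x) = Complex.I • x → x = 0
  cyc : ∀ x, P x = 0 → P (Complex.I • x) = 0 → x = 0

omit [CompleteSpace H] in
theorem smul_decomp (c : ℂ) (x : H) : c • x = c.re • x + c.im • (Complex.I • x) := by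
  rw [← Complex.coe_smul, ← Complex.coe_smul, smul_smul, ← add_smul, Complex.re_add_im]

omit [CompleteSpace H] in
theorem I_I (x : H) : Complex.I • Complex.I • x = -x := by
  rw [smul_smul, I_mul_I, neg_one_smul]

omit [CompleteSpace H] in
theorem im_inner (x y : H) : (⟪x, y⟫_ℂ).im = (⟪Complex.I • x, y⟫_ℂ).re := by
  rw [inner_smul_left]; simp

omit [CompleteSpace H] in
theorem re_inner_I (x y : H) : (⟪Complex.I • x, y⟫_ℂ).re = -(⟪x, Complex.I • y⟫_ℂ).re := by
  rw [inner_smul_left, inner_smul_right]; simp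

omit [CompleteSpace H] in
theorem re_inner_comm (x y : H) : (⟪x, y⟫_ℂ).re = (⟪y, x⟫_ℂ).re := by
  rw [← inner_conj_symm, conj_re]

omit [CompleteSpace H] in
theorem re_inner_self (x : H) : (⟪x, x⟫_ℂ).re = ‖x‖ ^ 2 := by
  rw [inner_self_eq_norm_sq_to_K]; norm_cast

/-- the coordinate function on `[0,1]` -/
noncomputable def rI : C(I, ℂ) := ⟨fun r => ((r : ℝ) : ℂ), by fun_prop⟩

@[simp] theorem rI_apply (r : I) : rI r = ((r : ℝ) : ℂ) := rfl

/-- polynomials are dense -/
theorem bern_ind (p : C(I, ℂ) → Prop) (hcl : IsClosed {g | p g}) (h1 : p 1)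
    (hadd : ∀ f g, p f → p g → p (f + g)) (hsmul : ∀ (c : ℂ) g, p g → p (c • g))
    (hr : ∀ g, p g → p (rI * g)) (g : C(I, ℂ)) : p g := by
  have h0 : p 0 := by
    have := hsmul 0 1 h1
    convert this using 1
    ext r; simp
  have hr' : ∀ g, p g → p ((1 - rI) * g) := fun g hg => by
    have := hadd _ _ hg (hsmul (-1) _ (hr g hg))
    convert this using 1
    ext r; simp; ring
  have hpow : ∀ a b : ℕ, p (rI ^ a * (1 - rI) ^ b) := by
    intro a b
    induction a with
    | zero =>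
      induction b with
      | zero => simpa using h1
      | succ b ih => simpa [pow_succ'] using hr' _ ih
    | succ a ih => simpa [pow_succ', mul_assoc] using hr _ ih
  refine hcl.mem_of_tendsto (bernsteinApproximation_uniform g) (Eventually.of_forall fun n => ?_)
  have : bernsteinApproximation n g = ∑ k : Fin (n + 1),
      (g (bernstein.z k) * (n.choose k : ℂ)) • (rI ^ (k : ℕ) * (1 - rI) ^ (n - k)) := by
    ext r
    simp [bernsteinApproximation.apply, bernstein_apply, ContinuousMap.sum_apply]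
    refine Finset.sum_congr rfl fun k _ => by ring
  show p _
  rw [this]
  exact Finset.sum_induction _ p hadd h0 fun k _ => hsmul _ _ (hpow _ _)

/-- the weight `2 √(r(1-r))` -/
noncomputable def wR (r : I) : ℝ := 2 * √((r : ℝ) * (1 - r))

theorem wR_nonneg (r : I) : 0 ≤ wR r := by unfold wR; positivity

theorem continuous_wR : Continuous wR := by unfold wR; fun_prop

theorem wR_sq (r : I) : wR r * wR r = 4 * ((r : ℝ) * (1 - r)) := by
  unfold wR
  have := Real.mul_self_sqrt (mul_nonneg r.2.1 (sub_nonneg.2 r.2.2))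
  nlinarith

theorem wR_symm (r : I) : wR (σ r) = wR r := by
  unfold wR; rw [coe_symm_eq]; congr 2; ring

theorem wR_eq_zero {r : I} (h : ¬ (0 < (r : ℝ) ∧ (r : ℝ) < 1)) : wR r = 0 := by
  have h0 := r.2.1
  have h1 := r.2.2
  have : (r : ℝ) * (1 - r) = 0 := by
    rcases not_and_or.1 h with h | h
    · rw [show (r : ℝ) = 0 by linarith [not_lt.1 h]]; simp
    · rw [show (r : ℝ) = 1 by linarith [not_lt.1 h]]; simp
  unfold wR; rw [this]; simp

theorem wR_pos {r : I} (h0 : 0 < (r : ℝ)) (h1 : (r : ℝ) < 1) : 0 < wR r := by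
  unfold wR
  have : 0 < (r : ℝ) * (1 - r) := mul_pos h0 (by linarith)
  positivity

noncomputable def wI : C(I, ℂ) := ⟨fun r => (wR r : ℂ), continuous_ofReal.comp continuous_wR⟩

@[simp] theorem wI_apply (r : I) : wI r = (wR r : ℂ) := rfl

theorem star_wI : star wI = wI := by ext r; simp

theorem wI_mul_wI : wI * wI = (4 : ℂ) • (rI * (1 - rI)) := by
  ext r
  have := congrArg (fun t : ℝ => (t : ℂ)) (wR_sq r)
  simpa using this

/-- `log ((1-r)/r)` -/
noncomputable def lg (r : I) : ℝ := Real.log (1 - r) - Real.log r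

theorem lg_symm (r : I) : lg (σ r) = -lg r := by
  unfold lg; rw [coe_symm_eq]; simp

theorem continuousAt_lg {r : I} (h0 : 0 < (r : ℝ)) (h1 : (r : ℝ) < 1) : ContinuousAt lg r := by
  unfold lg
  refine ContinuousAt.sub (ContinuousAt.log (by fun_prop) (by linarith))
    (ContinuousAt.log (by fun_prop) h0.ne')

theorem exp_lg {r : I} (h0 : 0 < (r : ℝ)) (h1 : (r : ℝ) < 1) :
    Real.exp (lg r) * r = 1 - r := by
  unfold lg
  rw [Real.exp_sub, Real.exp_log (by linarith), Real.exp_log h0]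
  field_simp

theorem wR_mul_exp {r : I} (h0 : 0 < (r : ℝ)) (h1 : (r : ℝ) < 1) :
    wR r * Real.exp (lg r / 2) = 2 * (1 - r) := by
  have h := exp_lg h0 h1
  have h2 : Real.exp (lg r / 2) * Real.exp (lg r / 2) = Real.exp (lg r) := by
    rw [← Real.exp_add]; ring_nf
  have h3 : (wR r * Real.exp (lg r / 2)) ^ 2 = (2 * (1 - r)) ^ 2 := by
    calc _ = (wR r * wR r) * (Real.exp (lg r / 2) * Real.exp (lg r / 2)) := by ring
      _ = 4 * (1 - r) * (Real.exp (lg r) * r) := by rw [wR_sq, h2]; ring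
      _ = _ := by rw [h]; ring
  exact (sq_eq_sq₀ (mul_nonneg (wR_nonneg r) (Real.exp_pos _).le) (by linarith)).1 h3

theorem wR_mul_exp_neg {r : I} (h0 : 0 < (r : ℝ)) (h1 : (r : ℝ) < 1) :
    wR r * Real.exp (-(lg r) / 2) = 2 * r := by
  have := wR_mul_exp (r := σ r) (by rw [coe_symm_eq]; linarith) (by rw [coe_symm_eq]; linarith)
  rw [wR_symm, lg_symm, coe_symm_eq] at this
  rw [this]; ring

/-- bounded functions continuous over the open interval become continuous after damping -/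
theorem cont_mul_w {X : Type*} [TopologicalSpace X] (p : X → I) (hp : Continuous p) (f : X → ℂ)
    (C : ℝ) (hC : ∀ x, ‖f x‖ ≤ C)
    (hf : ∀ x, 0 < (p x : ℝ) → (p x : ℝ) < 1 → ContinuousAt f x) :
    Continuous fun x => f x * (wR (p x) : ℂ) := by
  rw [continuous_iff_continuousAt]
  intro x
  have hw : ContinuousAt (fun x => wR (p x)) x := (continuous_wR.comp hp).continuousAt
  by_cases h : 0 < (p x : ℝ) ∧ (p x : ℝ) < 1
  · exact (hf x h.1 h.2).mul (continuous_ofReal.continuousAt.comp hw)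
  · have h0 := wR_eq_zero h
    unfold ContinuousAt
    simp only [h0, ofReal_zero, mul_zero]
    refine squeeze_zero_norm (a := fun y => C * wR (p y)) (fun y => ?_) ?_
    · rw [norm_mul, norm_real, Real.norm_of_nonneg (wR_nonneg _)]
      exact mul_le_mul_of_nonneg_right (hC y) (wR_nonneg _)
    · have := hw.const_mul C
      unfold ContinuousAt at this
      simpa [h0] using this

/-- `f ∘ lg` damped by the weight -/
noncomputable def gf (f : ℝ →ᵇ ℂ) : C(I, ℂ) :=
  ⟨fun r => f (lg r) * (wR r : ℂ), cont_mul_w id continuous_id _ ‖f‖ (fun _ => f.norm_coe_le_norm _)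
    fun _ h0 h1 => f.continuous.continuousAt.comp (continuousAt_lg h0 h1)⟩

@[simp] theorem gf_apply (f : ℝ →ᵇ ℂ) (r : I) : gf f r = f (lg r) * (wR r : ℂ) := rfl

/-- the reflected conjugate of a function on `[0,1]` -/
noncomputable def flip (g : C(I, ℂ)) : C(I, ℂ) := star (g.comp ⟨σ, continuous_symm⟩)

@[simp] theorem flip_apply (g : C(I, ℂ)) (r : I) : flip g r = conj (g (σ r)) := rfl

theorem continuous_flip : Continuous flip :=
  continuous_star.comp (ContinuousMap.continuous_precomp _)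

theorem flip_wI : flip wI = wI := by ext r; simp [wR_symm]

namespace SSub

variable (K : SSub H)

/-- the projection onto `iK` -/
noncomputable def Q : H →L[ℝ] H :=
  -(((Complex.I • (1 : H →L[ℂ] H)).restrictScalars ℝ).comp
    (K.P.comp ((Complex.I • (1 : H →L[ℂ] H)).restrictScalars ℝ)))

omit [CompleteSpace H] in
theorem Q_apply (x : H) : K.Q x = -(Complex.I • K.P (Complex.I • x)) := rfl

omit [CompleteSpace H] in
theorem Q_I (x : H) : K.Q (Complex.I • x) = Complex.I • K.P x := by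
  rw [Q_apply, I_I, map_neg, smul_neg, neg_neg]

omit [CompleteSpace H] in
theorem P_I (x : H) : K.P (Complex.I • x) = Complex.I • K.Q x := by
  rw [Q_apply, smul_neg, I_I, neg_neg]

omit [CompleteSpace H] in
theorem Q_idem (x : H) : K.Q (K.Q x) = K.Q x := by
  rw [Q_apply K (K.Q x), ← P_I, K.idem, ← Q_apply]

omit [CompleteSpace H] in
theorem Q_symm (x y : H) : (⟪K.Q x, y⟫_ℂ).re = (⟪x, K.Q y⟫_ℂ).re := by
  rw [Q_apply, Q_apply, inner_neg_left, inner_neg_right, neg_re, neg_re, re_inner_I, K.symm,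
    re_inner_I, neg_neg]

/-- `E = (P+Q)/2`, complex linear -/
noncomputable def E : H →L[ℂ] H where
  toFun x := (1 / 2 : ℝ) • (K.P x + K.Q x)
  map_add' x y := by simp only [map_add]; module
  map_smul' c x := by
    rw [smul_decomp c x, RingHom.id_apply, smul_decomp c]
    simp only [map_add, map_smul, Q_I, P_I]
    rw [smul_comm Complex.I, smul_add Complex.I]
    module
  cont := by fun_prop

/-- `A = P - Q`, conjugate linear -/
noncomputable def A : H →L⋆[ℂ] H where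
  toFun x := K.P x - K.Q x
  map_add' x y := by simp only [map_add]; module
  map_smul' c x := by
    rw [smul_decomp c x, smul_decomp (starRingEnd ℂ c)]
    simp only [map_add, map_smul, Q_I, P_I, conj_re, conj_im]
    rw [smul_sub Complex.I]
    module
  cont := by fun_prop

omit [CompleteSpace H] in
theorem E_apply (x : H) : K.E x = (1 / 2 : ℝ) • (K.P x + K.Q x) := rfl

omit [CompleteSpace H] in
theorem A_apply (x : H) : K.A x = K.P x - K.Q x := rfl

omit [CompleteSpace H] in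
theorem re_inner_rsmul_left (c : ℝ) (x y : H) : (⟪c • x, y⟫_ℂ).re = c * (⟪x, y⟫_ℂ).re := by
  rw [← Complex.coe_smul, inner_smul_left]; simp

omit [CompleteSpace H] in
theorem re_inner_rsmul_right (c : ℝ) (x y : H) : (⟪x, c • y⟫_ℂ).re = c * (⟪x, y⟫_ℂ).re := by
  rw [← Complex.coe_smul, inner_smul_right]; simp

omit [CompleteSpace H] in
theorem E_re (x y : H) : (⟪K.E x, y⟫_ℂ).re = (⟪x, K.E y⟫_ℂ).re := by
  rw [E_apply, E_apply, re_inner_rsmul_left, re_inner_rsmul_right, inner_add_left, inner_add_right,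
    add_re, add_re, K.symm, Q_symm]

omit [CompleteSpace H] in
theorem E_inner (x y : H) : ⟪K.E x, y⟫_ℂ = ⟪x, K.E y⟫_ℂ := by
  apply Complex.ext (K.E_re x y)
  rw [im_inner, im_inner, ← map_smul, E_re]

theorem E_sa : IsSelfAdjoint K.E :=
  ContinuousLinearMap.isSelfAdjoint_iff_isSymmetric.2 K.E_inner

omit [CompleteSpace H] in
theorem A_re (x y : H) : (⟪K.A x, y⟫_ℂ).re = (⟪K.A y, x⟫_ℂ).re := by
  rw [re_inner_comm (K.A y), A_apply, A_apply, inner_sub_left, inner_sub_right, sub_re, sub_re,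
    K.symm, Q_symm]

omit [CompleteSpace H] in
theorem A_inner (x y : H) : ⟪K.A x, y⟫_ℂ = ⟪K.A y, x⟫_ℂ := by
  apply Complex.ext (K.A_re x y)
  have h : Complex.I • K.A x = K.A ((-Complex.I) • x) := by rw [map_smulₛₗ]; simp
  rw [im_inner, h, A_re, inner_smul_right]; simp

omit [CompleteSpace H] in
theorem A_A (x : H) : K.A (K.A x) = (4 : ℂ) • (K.E (x - K.E x)) := by
  have : ∀ y : H, (4 : ℂ) • y = (4 : ℝ) • y := fun y => by rw [← Complex.coe_smul]; norm_num
  simp only [this, A_apply, E_apply, map_sub, map_add, map_smul, K.idem, Q_idem]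
  module

omit [CompleteSpace H] in
theorem A_E (x : H) : K.A (K.E x) = K.A x - K.E (K.A x) := by
  simp only [A_apply, E_apply, map_sub, map_add, map_smul, K.idem, Q_idem]
  module

omit [CompleteSpace H] in
theorem P_eq (x : H) : K.P x = K.E x + (1 / 2 : ℝ) • K.A x := by
  simp only [A_apply, E_apply]; module

omit [CompleteSpace H] in
theorem Q_eq (x : H) : K.Q x = K.E x - (1 / 2 : ℝ) • K.A x := by
  simp only [A_apply, E_apply]; module

omit [CompleteSpace H] in
theorem Q_A_P (x : H) : K.Q (K.A (K.P x)) = 0 := by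
  simp only [A_apply, map_sub, K.idem, Q_idem, sub_self]

omit [CompleteSpace H] in
theorem proj_bounds (P : H →L[ℝ] H) (h1 : ∀ x, P (P x) = P x)
    (h2 : ∀ x y, (⟪P x, y⟫_ℂ).re = (⟪x, P y⟫_ℂ).re) (x : H) :
    0 ≤ (⟪P x, x⟫_ℂ).re ∧ (⟪P x, x⟫_ℂ).re ≤ (⟪x, x⟫_ℂ).re := by
  have e1 : (⟪P x, x⟫_ℂ).re = ‖P x‖ ^ 2 := by rw [← re_inner_self, ← h2 (P x), h1]
  refine ⟨by rw [e1]; positivity, ?_⟩
  have e2 := re_inner_self (x - P x)
  rw [inner_sub_left, inner_sub_right, inner_sub_right, sub_re, sub_re, sub_re,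
    re_inner_comm x (P x), re_inner_self (P x), ← e1] at e2
  nlinarith [sq_nonneg ‖x - P x‖]

omit [CompleteSpace H] in
theorem E_nonneg : 0 ≤ K.E := by
  rw [ContinuousLinearMap.nonneg_iff_isPositive]
  refine ⟨K.E_inner, fun x => ?_⟩
  show 0 ≤ (⟪K.E x, x⟫_ℂ).re
  rw [E_apply, re_inner_rsmul_left, inner_add_left, add_re]
  have := (proj_bounds K.P K.idem K.symm x).1
  have := (proj_bounds K.Q K.Q_idem K.Q_symm x).1
  positivity

theorem E_le_one : K.E ≤ 1 := by
  rw [← sub_nonneg, ContinuousLinearMap.nonneg_iff_isPositive]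
  refine ⟨fun x y => ?_, fun x => ?_⟩
  · show ⟪x - K.E x, y⟫_ℂ = ⟪x, y - K.E y⟫_ℂ
    rw [inner_sub_left, inner_sub_right, E_inner]
  · show 0 ≤ (⟪x - K.E x, x⟫_ℂ).re
    rw [inner_sub_left, sub_re, E_apply, re_inner_rsmul_left, inner_add_left, add_re]
    have := (proj_bounds K.P K.idem K.symm x).2
    have := (proj_bounds K.Q K.Q_idem K.Q_symm x).2
    linarith

theorem spec_E {z : ℂ} (hz : z ∈ spectrum ℂ K.E) : z = z.re ∧ 0 ≤ z.re ∧ z.re ≤ 1 := by
  have h1 := K.E_sa.mem_spectrum_eq_re hz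
  have h2 : z.re ∈ spectrum ℝ K.E := by
    apply spectrum.of_algebraMap_mem ℂ
    rw [h1] at hz; exact hz
  refine ⟨h1, spectrum_nonneg_of_nonneg K.E_nonneg h2, ?_⟩
  have := (CFC.le_one_iff (R := ℝ) K.E K.E_sa).1 K.E_le_one
  exact this _ h2

/-- functional calculus of `E` on `C([0,1])` -/
noncomputable def ψ : C(I, ℂ) →⋆ₐ[ℂ] (H →L[ℂ] H) :=
  (cfcHom (R := ℂ) K.E_sa.isStarNormal).comp (ContinuousMap.compStarAlgHom' ℂ ℂ
    ⟨fun z : spectrum ℂ K.E => Set.projIcc (0 : ℝ) 1 zero_le_one z.1.re,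
      continuous_projIcc.comp (by fun_prop)⟩)

theorem ψ_eq_cfc (g : C(I, ℂ)) :
    K.ψ g = cfc (fun z : ℂ => g (Set.projIcc (0 : ℝ) 1 zero_le_one z.re)) K.E := by
  have := K.E_sa.isStarNormal
  rw [cfc_apply (fun z : ℂ => g (Set.projIcc (0 : ℝ) 1 zero_le_one z.re)) K.E this
    (Continuous.continuousOn (g.continuous.comp (continuous_projIcc.comp continuous_re)))]
  rfl

theorem ψ_rI : K.ψ rI = K.E := by
  have := K.E_sa.isStarNormal
  rw [ψ_eq_cfc]
  conv_rhs => rw [← cfc_id ℂ K.E]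
  refine cfc_congr fun z hz => ?_
  obtain ⟨h1, h2, h3⟩ := K.spec_E hz
  simp only [rI_apply, id]
  rw [Set.projIcc_of_mem _ ⟨h2, h3⟩]
  exact h1.symm

theorem norm_ψ_le (g : C(I, ℂ)) : ‖K.ψ g‖ ≤ ‖g‖ := NonUnitalStarAlgHom.norm_apply_le K.ψ g

theorem continuous_ψ : Continuous K.ψ :=
  AddMonoidHomClass.continuous_of_bound K.ψ 1 fun g => by simpa using K.norm_ψ_le g

theorem ψ_mul (f g : C(I, ℂ)) (x : H) : K.ψ (f * g) x = K.ψ f (K.ψ g x) := by rw [map_mul]; rfl

theorem ψ_comm (f g : C(I, ℂ)) (x : H) : K.ψ f (K.ψ g x) = K.ψ g (K.ψ f x) := by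
  rw [← ψ_mul, mul_comm, ψ_mul]

theorem inner_ψ (g : C(I, ℂ)) (x y : H) : ⟪K.ψ g x, y⟫_ℂ = ⟪x, K.ψ (star g) y⟫_ℂ := by
  rw [map_star, ContinuousLinearMap.star_eq_adjoint, ContinuousLinearMap.adjoint_inner_right]

theorem norm_ψ_sq (g : C(I, ℂ)) (x : H) : ‖K.ψ g x‖ ^ 2 = (⟪x, K.ψ (star g * g) x⟫_ℂ).re := by
  rw [← re_inner_self, inner_ψ, ψ_mul]

theorem norm_ψ_cmp (g h : C(I, ℂ)) (C : ℝ) (hC : 0 ≤ C) (hgh : ∀ r, ‖g r‖ ≤ C * ‖h r‖) (x : H) :
    ‖K.ψ g x‖ ≤ C * ‖K.ψ h x‖ := by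
  let k : C(I, ℂ) := ⟨fun r => ((√((C * ‖h r‖) ^ 2 - ‖g r‖ ^ 2) : ℝ) : ℂ), by fun_prop⟩
  have e : star g * g + star k * k = ((C ^ 2 : ℝ) : ℂ) • (star h * h) := by
    ext r
    have h0 : 0 ≤ (C * ‖h r‖) ^ 2 - ‖g r‖ ^ 2 :=
      sub_nonneg.2 (pow_le_pow_left₀ (norm_nonneg _) (hgh r) 2)
    simp only [k, ContinuousMap.add_apply, ContinuousMap.mul_apply, ContinuousMap.star_apply,
      ContinuousMap.coe_mk, ContinuousMap.smul_apply, RCLike.star_def, conj_ofReal, smul_eq_mul,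
      conj_mul', ← ofReal_mul, Real.mul_self_sqrt h0]
    push_cast; ring
  have e2 : ‖K.ψ g x‖ ^ 2 + ‖K.ψ k x‖ ^ 2 = (C * ‖K.ψ h x‖) ^ 2 := by
    rw [mul_pow, norm_ψ_sq, norm_ψ_sq, norm_ψ_sq, ← add_re, ← inner_add_right,
      ← add_apply, ← map_add, e, map_smul, smul_apply,
      inner_smul_right, re_ofReal_mul]
  have : ‖K.ψ g x‖ ^ 2 ≤ (C * ‖K.ψ h x‖) ^ 2 := by nlinarith [sq_nonneg ‖K.ψ k x‖]
  exact (pow_le_pow_iff_left₀ (norm_nonneg _) (by positivity) two_ne_zero).1 this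

theorem A_ψ (g : C(I, ℂ)) : ∀ x : H, K.A (K.ψ g x) = K.ψ (flip g) (K.A x) := by
  refine bern_ind (fun g => ∀ x : H, K.A (K.ψ g x) = K.ψ (flip g) (K.A x)) ?_ ?_ ?_ ?_ ?_ g
  · simp only [Set.ofPred_forall]
    refine isClosed_iInter fun x => isClosed_eq ?_ ?_
    · exact K.A.continuous.comp ((ContinuousLinearMap.apply ℂ H x).continuous.comp K.continuous_ψ)
    · exact (ContinuousLinearMap.apply ℂ H (K.A x)).continuous.comp
        (K.continuous_ψ.comp continuous_flip)
  · intro x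
    have : flip 1 = 1 := by ext r; simp
    simp [this]
  · intro f g hf hg x
    have : flip (f + g) = flip f + flip g := by ext r; simp
    simp [this, hf, hg]
  · intro c g hg x
    have : flip (c • g) = conj c • flip g := by ext r; simp
    simp [this, hg, map_smulₛₗ]
  · intro g hg x
    have : flip (rI * g) = (1 - rI) * flip g := by ext r; simp
    rw [this, ψ_mul, ψ_mul, ψ_rI, A_E, hg, map_sub, map_one, ψ_rI]
    rfl

/-- `T = (R(2-R))^{1/2}` -/
noncomputable def T : H →L[ℂ] H := K.ψ wI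

theorem T_inner (x y : H) : ⟪K.T x, y⟫_ℂ = ⟪x, K.T y⟫_ℂ := by
  unfold T; rw [inner_ψ, star_wI]

theorem T_T (x : H) : K.T (K.T x) = K.A (K.A x) := by
  unfold T
  rw [← ψ_mul, wI_mul_wI, A_A, map_smul, map_mul, map_sub, map_one, ψ_rI]
  rfl

theorem A_T (x : H) : K.A (K.T x) = K.T (K.A x) := by
  unfold T; rw [A_ψ, flip_wI]

theorem ψ_T (g : C(I, ℂ)) (x : H) : K.ψ g (K.T x) = K.T (K.ψ g x) := K.ψ_comm _ _ _

theorem E_T (x : H) : K.E (K.T x) = K.T (K.E x) := by rw [← ψ_rI, ψ_T]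

theorem norm_A (x : H) : ‖K.A x‖ = ‖K.T x‖ := by
  have : ‖K.A x‖ ^ 2 = ‖K.T x‖ ^ 2 := by
    rw [← re_inner_self, ← re_inner_self, T_inner, T_T, re_inner_comm x, A_re K (K.A x)]
  exact (sq_eq_sq₀ (norm_nonneg _) (norm_nonneg _)).1 this

theorem T_inj {x : H} (h : K.T x = 0) : x = 0 := by
  have h1 : K.A x = 0 := by rw [← norm_eq_zero, norm_A, h, norm_zero]
  rw [A_apply, sub_eq_zero] at h1
  have h2 : K.P x = 0 := K.sep _ (K.idem x) (by rw [P_I, h1, Q_idem])
  exact K.cyc x h2 (by rw [P_I, ← h1, h2, smul_zero])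

theorem T_injective : Function.Injective K.T := fun x y h =>
  sub_eq_zero.1 (K.T_inj (by rw [map_sub, h, sub_self]))

theorem T_dense : DenseRange K.T := by
  have : (LinearMap.range (K.T : H →ₗ[ℂ] H)).topologicalClosure = ⊤ := by
    rw [Submodule.topologicalClosure_eq_top_iff, Submodule.eq_bot_iff]
    intro x hx
    apply K.T_inj
    have := (Submodule.mem_orthogonal _ _).1 hx (K.T (K.T x)) ⟨K.T x, rfl⟩
    rw [T_inner] at this
    exact inner_self_eq_zero.1 this
  exact Submodule.dense_iff_topologicalClosure_eq_top.2 this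

theorem TT_dense : DenseRange fun x => K.T (K.T x) :=
  K.T_dense.comp K.T_dense K.T.continuous

/-- the modular conjugation as a semilinear map -/
noncomputable def J0 : H →L⋆[ℂ] H :=
  LinearMap.extendOfNorm (K.A : H →ₗ⋆[ℂ] H) (K.T : H →ₗ[ℂ] H)

theorem J0_T (x : H) : K.J0 (K.T x) = K.A x :=
  LinearMap.extendOfNorm_eq (f := (K.A : H →ₗ⋆[ℂ] H)) (e := (K.T : H →ₗ[ℂ] H)) K.T_dense
    ⟨1, fun x => by simp [norm_A]⟩ x

theorem norm_J0 (x : H) : ‖K.J0 x‖ = ‖x‖ :=
  K.T_dense.induction_on x (isClosed_eq (by fun_prop) (by fun_prop)) fun y => by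
    rw [J0_T, norm_A]

theorem J0_J0 (x : H) : K.J0 (K.J0 x) = x :=
  K.TT_dense.induction_on x (isClosed_eq (by fun_prop) (by fun_prop)) fun y => by
    rw [J0_T, A_T, J0_T, T_T]

/-- the modular conjugation -/
noncomputable def J : H ≃ₗᵢ⋆[ℂ] H where
  toFun := K.J0
  invFun := K.J0
  map_add' := K.J0.map_add
  map_smul' := K.J0.map_smulₛₗ
  left_inv := K.J0_J0
  right_inv := K.J0_J0
  norm_map' := K.norm_J0

theorem J_T (x : H) : K.J (K.T x) = K.A x := K.J0_T x

theorem J_J (x : H) : K.J (K.J x) = x := K.J0_J0 x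

theorem J_ψ (g : C(I, ℂ)) (x : H) : K.J (K.ψ g x) = K.ψ (flip g) (K.J x) :=
  K.T_dense.induction_on x (isClosed_eq (by fun_prop) (by fun_prop)) fun y => by
    rw [ψ_T, J_T, J_T, A_ψ]

theorem T_J (x : H) : K.T (K.J x) = K.A x := by
  rw [← J_T]; unfold T; rw [J_ψ, flip_wI]

theorem J_E (x : H) : K.J (K.E x) = K.J x - K.E (K.J x) := by
  have : flip rI = 1 - rI := by ext r; simp
  rw [← ψ_rI, J_ψ, this, map_sub, map_one, ψ_rI]; rfl

theorem J_inner (x y : H) : ⟪K.J x, y⟫_ℂ = ⟪K.J y, x⟫_ℂ := by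
  refine K.T_dense.induction_on₂ (p := fun x y => ⟪K.J x, y⟫_ℂ = ⟪K.J y, x⟫_ℂ)
    (isClosed_eq (by fun_prop) (by fun_prop)) (fun a b => ?_) x y
  rw [J_T, J_T, ← T_inner, ← A_T, A_inner]

theorem inner_J_J (x y : H) : ⟪K.J x, K.J y⟫_ℂ = ⟪y, x⟫_ℂ := by rw [J_inner, J_J]

theorem Q_T (x : H) : K.Q (K.T x) = K.T (K.Q x) := by
  rw [Q_eq, Q_eq, E_T, A_T, map_sub, ContinuousLinearMap.map_smul_of_tower]

theorem P_T (x : H) : K.P (K.T x) = K.T (K.P x) := by
  rw [P_eq, P_eq, E_T, A_T, map_add, ContinuousLinearMap.map_smul_of_tower]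

theorem Q_J {x : H} (hx : K.P x = x) : K.Q (K.J x) = 0 := by
  apply K.T_inj
  rw [← Q_T, T_J, ← hx, Q_A_P]

omit [CompleteSpace H] in
theorem A_of_P {x : H} (hx : K.P x = x) : K.A x = (2 : ℂ) • (x - K.E x) := by
  have : ∀ y : H, (2 : ℂ) • y = (2 : ℝ) • y := fun y => by rw [← Complex.coe_smul]; norm_num
  rw [this, A_apply, E_apply, hx]; module

omit [CompleteSpace H] in
theorem A_of_Q {x : H} (hx : K.Q x = 0) : K.A x = (2 : ℂ) • K.E x ∧ K.A x = K.P x := by
  have : ∀ y : H, (2 : ℂ) • y = (2 : ℝ) • y := fun y => by rw [← Complex.coe_smul]; norm_num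
  rw [this, A_apply, E_apply, hx]; exact ⟨by module, by simp⟩

theorem J_fix {x : H} (h1 : K.P x = x) (h2 : K.Q x = 0) : K.J x = x := by
  have hA : K.A x = x := (K.A_of_Q h2).2.trans h1
  have hT : K.T x = x := by
    have h3 : K.ψ (wI + 1) (K.T x - x) = 0 := by
      rw [map_add, map_one, add_apply]
      change K.T _ + (K.T x - x) = 0
      rw [map_sub, T_T, hA, hA]; abel
    have h4 := K.norm_ψ_cmp 1 (wI + 1) 1 zero_le_one (fun r => by
      have := wR_nonneg r
      simp only [ContinuousMap.one_apply, norm_one, ContinuousMap.add_apply, wI_apply, one_mul]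
      rw [← ofReal_one, ← ofReal_add, norm_real, Real.norm_of_nonneg (by linarith)]
      linarith) (K.T x - x)
    rw [h3, map_one, norm_zero, mul_zero] at h4
    exact sub_eq_zero.1 (norm_le_zero_iff.1 h4)
  rw [← hT, J_T, hA, hT]

end SSub

end Crest.Agent.KS
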