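import Crest.Agent.KS.TomA

/-! Rieffel–van Daele modular theory, part B: the calculus of `log Δ`. -/

set_option autoImplicit false

namespace Crest.Agent.KS

open Crest.OpAlg Filter Topology Complex unitInterval
open scoped BoundedContinuousFunction InnerProductSpace ComplexConjugate

variable {H : Type*} [NormedAddCommGroup H] [InnerProductSpace ℂ H] [CompleteSpace H]

theorem ext_open {f g : C(I, ℂ)} (h : ∀ r : I, 0 < (r : ℝ) → (r : ℝ) < 1 → f r = g r) :
    f * wI = g * wI := by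
  ext r
  by_cases hr : 0 < (r : ℝ) ∧ (r : ℝ) < 1
  · simp [h r hr.1 hr.2]
  · simp [wR_eq_zero hr]

/-- `u ↦ 1/(1+e^u)`, the inverse of `lg` -/
noncomputable def rho (u : ℝ) : I :=
  ⟨1 / (1 + Real.exp u), by positivity, by
    rw [div_le_one (by positivity)]; linarith [Real.exp_pos u]⟩

theorem continuous_rho : Continuous rho :=
  Continuous.subtype_mk (continuous_const.div (by fun_prop) fun u => by positivity) _

theorem rho_lg {r : I} (h0 : 0 < (r : ℝ)) (h1 : (r : ℝ) < 1) : rho (lg r) = r := by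
  apply Subtype.ext
  have := exp_lg h0 h1
  show 1 / (1 + Real.exp (lg r)) = r
  rw [div_eq_iff (by positivity)]
  linarith

theorem rho_coe (u : ℝ) : (rho u : ℝ) = 1 / (1 + Real.exp u) := rfl

theorem rho_pos (u : ℝ) : 0 < (rho u : ℝ) := by rw [rho_coe]; positivity

theorem rho_lt_one (u : ℝ) : (rho u : ℝ) < 1 := by
  rw [rho_coe, div_lt_one (by positivity)]; linarith [Real.exp_pos u]

theorem lg_rho (u : ℝ) : lg (rho u) = u := by
  have h := exp_lg (rho_pos u) (rho_lt_one u)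
  apply Real.exp_injective
  have h2 : Real.exp u * (rho u : ℝ) = 1 - rho u := by
    rw [rho_coe]; field_simp; ring
  exact mul_right_cancel₀ (rho_pos u).ne' (h.trans h2.symm)

/-- a function on `[0,1]` as a bounded function of `u = log Δ` -/
noncomputable def pull (h : C(I, ℂ)) : ℝ →ᵇ ℂ :=
  BoundedContinuousFunction.ofNormedAddCommGroup (fun u => h (rho u))
    (h.continuous.comp continuous_rho) ‖h‖ fun _ => h.norm_coe_le_norm _

@[simp] theorem pull_apply (h : C(I, ℂ)) (u : ℝ) : pull h u = h (rho u) := rfl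

/-- reflected conjugate of a function on the line -/
noncomputable def bflip (f : ℝ →ᵇ ℂ) : ℝ →ᵇ ℂ :=
  star (f.compContinuous ⟨fun u => -u, continuous_neg⟩)

@[simp] theorem bflip_apply (f : ℝ →ᵇ ℂ) (u : ℝ) : bflip f u = conj (f (-u)) := rfl

theorem flip_gf (f : ℝ →ᵇ ℂ) : flip (gf f) = gf (bflip f) := by
  ext r; simp [wR_symm, lg_symm]

theorem wR_rho_le (u : ℝ) : wR (rho u) ≤ 2 * Real.exp (-|u| / 2) := by
  have h1 := wR_mul_exp (rho_pos u) (rho_lt_one u)
  have h2 := wR_mul_exp_neg (rho_pos u) (rho_lt_one u)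
  rw [lg_rho] at h1 h2
  have h3 := rho_pos u
  have h4 := rho_lt_one u
  have key : ∀ v : ℝ, wR (rho u) * Real.exp (v / 2) ≤ 2 → wR (rho u) ≤ 2 * Real.exp (-v / 2) := by
    intro v hv
    have e : Real.exp (v / 2) * Real.exp (-v / 2) = 1 := by rw [← Real.exp_add]; simp; ring
    calc wR (rho u) = wR (rho u) * Real.exp (v / 2) * Real.exp (-v / 2) := by rw [mul_assoc, e, mul_one]
      _ ≤ _ := mul_le_mul_of_nonneg_right hv (Real.exp_pos _).le
  rcases abs_cases u with ⟨h, -⟩ | ⟨h, -⟩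
  · rw [h]; exact key u (by linarith)
  · rw [h]; exact key (-u) (by linarith)

namespace SSub

variable (K : SSub H)

theorem gf_bound (f : ℝ →ᵇ ℂ) (x : H) : ‖K.ψ (gf f) x‖ ≤ ‖f‖ * ‖K.T x‖ :=
  K.norm_ψ_cmp _ _ _ (norm_nonneg _) (fun r => by
    rw [gf_apply, norm_mul]
    exact mul_le_mul_of_nonneg_right (f.norm_coe_le_norm _) (norm_nonneg _)) x

/-- `f(log Δ)` -/
noncomputable def ap (f : ℝ →ᵇ ℂ) : H →L[ℂ] H :=
  LinearMap.extendOfNorm (K.ψ (gf f) : H →ₗ[ℂ] H) (K.T : H →ₗ[ℂ] H)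

theorem ap_T (f : ℝ →ᵇ ℂ) (x : H) : K.ap f (K.T x) = K.ψ (gf f) x :=
  LinearMap.extendOfNorm_eq (f := (K.ψ (gf f) : H →ₗ[ℂ] H)) (e := (K.T : H →ₗ[ℂ] H)) K.T_dense
    ⟨‖f‖, K.gf_bound f⟩ x

theorem ext_T {a b : H →L[ℂ] H} (h : ∀ x, a (K.T x) = b (K.T x)) : a = b := by
  ext x
  exact K.T_dense.induction_on x (isClosed_eq a.continuous b.continuous) h

theorem T_eq (x : H) : K.T x = K.ψ wI x := rfl

theorem ap_ψ (f : ℝ →ᵇ ℂ) (g : C(I, ℂ)) (x : H) : K.ap f (K.ψ g x) = K.ψ g (K.ap f x) := by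
  have : K.ap f * K.ψ g = K.ψ g * K.ap f := K.ext_T fun y => by
    show K.ap f (K.ψ g (K.T y)) = K.ψ g (K.ap f (K.T y))
    rw [ψ_T, ap_T, ap_T, ψ_comm]
  exact congrArg (fun a : H →L[ℂ] H => a x) this

theorem T_ap (f : ℝ →ᵇ ℂ) (x : H) : K.T (K.ap f x) = K.ψ (gf f) x := by
  rw [T_eq, ← ap_ψ, ← T_eq, ap_T]

/-- if `f ∘ lg` extends continuously to `[0,1]` then `f(log Δ)` is a continuous function of `E` -/
theorem ap_eq_ψ (f : ℝ →ᵇ ℂ) (h : C(I, ℂ))
    (hf : ∀ r : I, 0 < (r : ℝ) → (r : ℝ) < 1 → f (lg r) = h r) : K.ap f = K.ψ h :=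
  K.ext_T fun x => by
    rw [ap_T, T_eq, ← ψ_mul]
    congr 2
    ext r
    by_cases hr : 0 < (r : ℝ) ∧ (r : ℝ) < 1
    · simp [hf r hr.1 hr.2]
    · simp [wR_eq_zero hr]

theorem ap_pull (h : C(I, ℂ)) : K.ap (pull h) = K.ψ h :=
  K.ap_eq_ψ _ _ fun r h0 h1 => by rw [pull_apply, rho_lg h0 h1]

theorem ap_mul' (f g : ℝ →ᵇ ℂ) : K.ap (f * g) = K.ap f * K.ap g :=
  K.ext_T fun x => K.T_injective (by
    show K.T (K.ap (f * g) (K.T x)) = K.T (K.ap f (K.ap g (K.T x)))
    rw [T_ap, T_ap, ap_T, T_eq, ← ψ_mul, ← ψ_mul]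
    congr 2
    ext r; simp; ring)

theorem ap_star (f : ℝ →ᵇ ℂ) : K.ap (star f) = star (K.ap f) := by
  rw [ContinuousLinearMap.star_eq_adjoint, ContinuousLinearMap.eq_adjoint_iff]
  intro x y
  refine K.T_dense.induction_on₂
    (p := fun x y => ⟪K.ap (star f) x, y⟫_ℂ = ⟪x, K.ap f y⟫_ℂ)
    (isClosed_eq (by fun_prop) (by fun_prop)) (fun a b => ?_) x y
  rw [ap_T, ap_T, T_inner, inner_ψ, T_eq, T_eq, ← ψ_mul, ← ψ_mul]
  congr 3
  ext r; simp; ring

/-- the calculus as a star-algebra morphism -/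
noncomputable def apHom : (ℝ →ᵇ ℂ) →⋆ₐ[ℂ] (H →L[ℂ] H) where
  toFun := K.ap
  map_one' := by rw [K.ap_eq_ψ 1 1 fun _ _ _ => rfl, map_one]
  map_mul' := K.ap_mul'
  map_zero' := by rw [K.ap_eq_ψ 0 0 fun _ _ _ => rfl, map_zero]
  map_add' f g := K.ext_T fun x => by
    rw [add_apply, ap_T, ap_T, ap_T, ← add_apply, ← map_add]
    congr 2
    ext r; simp; ring
  commutes' c := by
    rw [K.ap_eq_ψ _ (algebraMap ℂ _ c) fun _ _ _ => rfl, AlgHomClass.commutes]
  map_star' := K.ap_star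

theorem window (x : H) (ε : ℝ) (hε : 0 < ε) :
    ∃ f : ℝ →ᵇ ℂ, HasCompactSupport (f : ℝ → ℂ) ∧ ‖K.apHom f x - x‖ < ε := by
  obtain ⟨y, hy⟩ := Metric.denseRange_iff.1 K.T_dense x (ε / 4) (by positivity)
  rw [dist_eq_norm] at hy
  set δ : ℝ := ε / (8 * (‖y‖ + 1)) with hδ
  have hδ0 : 0 < δ := by positivity
  let h : C(I, ℂ) := ⟨fun r => ((min 1 (max 0 (wR r / δ - 1)) : ℝ) : ℂ),
    continuous_ofReal.comp (continuous_const.min (continuous_const.max
      ((continuous_wR.div_const δ).sub continuous_const)))⟩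
  have hb : ∀ r, 0 ≤ min 1 (max 0 (wR r / δ - 1)) ∧ min 1 (max 0 (wR r / δ - 1)) ≤ 1 := fun r =>
    ⟨le_min zero_le_one (le_max_left _ _), min_le_left _ _⟩
  have hn : ∀ r, ‖(h - 1) r‖ = 1 - min 1 (max 0 (wR r / δ - 1)) := fun r => by
    simp only [h, ContinuousMap.sub_apply, ContinuousMap.coe_mk, ContinuousMap.one_apply]
    rw [← ofReal_one, ← ofReal_sub, norm_real, Real.norm_eq_abs, abs_of_nonpos (by linarith [(hb r).2])]
    ring
  refine ⟨pull h, ?_, ?_⟩
  · set R : ℝ := 2 * |Real.log (2 / δ)| with hR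
    refine HasCompactSupport.intro (isCompact_Icc (a := -R) (b := R)) fun u hu => ?_
    have h1 : R ≤ |u| := by
      rw [Set.mem_Icc, not_and_or, not_le, not_le] at hu
      rcases hu with hu | hu
      · linarith [neg_abs_le u]
      · linarith [le_abs_self u]
    have h2 : wR (rho u) ≤ δ := by
      refine (wR_rho_le u).trans ?_
      have : Real.exp (-|u| / 2) ≤ Real.exp (-Real.log (2 / δ)) :=
        Real.exp_le_exp.2 (by linarith [le_abs_self (Real.log (2 / δ))])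
      rw [Real.exp_neg, Real.exp_log (by positivity), inv_div] at this
      linarith
    have h3 : wR (rho u) / δ - 1 ≤ 0 := by rw [sub_nonpos, div_le_one hδ0]; exact h2
    simp only [pull_apply, h, ContinuousMap.coe_mk, max_eq_left h3, min_eq_right zero_le_one,
      ofReal_zero]
  · show ‖K.ap (pull h) x - x‖ < ε
    rw [ap_pull]
    have e : K.ψ h x - x = K.ψ (h - 1) (x - K.T y) + K.ψ ((h - 1) * wI) y := by
      rw [ψ_mul, ← T_eq, ← map_add, sub_add_cancel, map_sub, map_one]; rfl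
    have b1 : ‖K.ψ (h - 1) (x - K.T y)‖ ≤ 1 * ‖K.ψ 1 (x - K.T y)‖ :=
      K.norm_ψ_cmp _ _ _ zero_le_one (fun r => by
        rw [hn]; simp only [ContinuousMap.one_apply, norm_one]; linarith [(hb r).1]) _
    have b2 : ‖K.ψ ((h - 1) * wI) y‖ ≤ (2 * δ) * ‖K.ψ 1 y‖ :=
      K.norm_ψ_cmp _ _ _ (by positivity) (fun r => by
        rw [ContinuousMap.mul_apply, norm_mul, hn, wI_apply, norm_real,
          Real.norm_of_nonneg (wR_nonneg r), ContinuousMap.one_apply, norm_one, mul_one]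
        by_cases hw : wR r ≤ 2 * δ
        · nlinarith [(hb r).1, wR_nonneg r]
        · have : 1 ≤ wR r / δ - 1 := by
            rw [le_sub_iff_add_le, le_div_iff₀ hδ0]; linarith [not_le.1 hw]
          rw [min_eq_left (le_max_of_le_right this)]
          simp; positivity) _
    rw [map_one] at b1 b2
    simp only [ContinuousLinearMap.one_apply] at b1 b2
    have b3 : 2 * δ * ‖y‖ ≤ ε / 4 := by
      rw [hδ]
      have : ‖y‖ / (‖y‖ + 1) ≤ 1 := by rw [div_le_one (by positivity)]; linarith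
      calc 2 * (ε / (8 * (‖y‖ + 1))) * ‖y‖ = ε / 4 * (‖y‖ / (‖y‖ + 1)) := by field_simp; ring
        _ ≤ ε / 4 * 1 := by gcongr
        _ = _ := by ring
    rw [e]
    linarith [norm_add_le (K.ψ (h - 1) (x - K.T y)) (K.ψ ((h - 1) * wI) y)]

/-- the calculus of `log Δ`, `Δ = (1-E)/E` -/
noncomputable def D : LineCalculus H := ⟨K.apHom, K.window⟩

theorem D_apply (f : ℝ →ᵇ ℂ) : K.D.apply f = K.ap f := rfl

theorem D_T (f : ℝ →ᵇ ℂ) (x : H) : K.D.apply f (K.T x) = K.ψ (gf f) x := K.ap_T f x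

theorem T_D (f : ℝ →ᵇ ℂ) (x : H) : K.T (K.D.apply f x) = K.ψ (gf f) x := K.T_ap f x

theorem D_ψ (f : ℝ →ᵇ ℂ) (g : C(I, ℂ)) (x : H) :
    K.D.apply f (K.ψ g x) = K.ψ g (K.D.apply f x) := K.ap_ψ f g x

theorem D_eq_ψ (f : ℝ →ᵇ ℂ) (h : C(I, ℂ))
    (hf : ∀ r : I, 0 < (r : ℝ) → (r : ℝ) < 1 → f (lg r) = h r) : K.D.apply f = K.ψ h :=
  K.ap_eq_ψ f h hf

theorem D_pull (h : C(I, ℂ)) : K.D.apply (pull h) = K.ψ h := K.ap_pull h

theorem J_D (f : ℝ →ᵇ ℂ) (x : H) : K.J (K.D.apply f x) = K.D.apply (bflip f) (K.J x) :=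
  K.T_dense.induction_on x (isClosed_eq (by fun_prop) (by fun_prop)) fun y => by
    rw [D_T, J_ψ, flip_gf, J_T, ← T_J, D_T]

theorem J_wave (t : ℝ) (x : H) : K.J (K.D.wave t x) = K.D.wave t (K.J x) := by
  unfold LineCalculus.wave
  rw [J_D]
  congr 2
  ext u
  simp only [bflip_apply, H0112.character_apply, ← Complex.exp_conj, map_mul, conj_I, conj_ofReal]
  congr 1; push_cast; ring

/-- `Δ^{it}` preserves `K`. -/
theorem P_wave (t : ℝ) (x : H) : K.P (K.D.wave t x) = K.D.wave t (K.P x) := by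
  have h1 : K.E (K.D.wave t x) = K.D.wave t (K.E x) := by
    rw [← ψ_rI]; exact (K.D_ψ _ _ _).symm
  have h2 : K.A (K.D.wave t x) = K.D.wave t (K.A x) := by
    rw [← T_J, ← T_J, J_wave]; exact (K.D_ψ _ wI _).symm
  rw [P_eq, P_eq, h1, h2, map_add, ContinuousLinearMap.map_smul_of_tower]

/-- The graph of `J Δ^{1/2}` consists of the pairs `(ξ + iη, ξ - iη)`, `ξ, η ∈ K`. -/
theorem halfExp_iff (x y : H) :
    K.D.HalfExp x (K.J y) ↔ K.P (x + y) = x + y ∧ K.Q (x - y) = x - y := by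
  have two : ∀ y : H, (2 : ℂ) • y = (2 : ℝ) • y := fun y => by rw [← Complex.coe_smul]; norm_num
  have hE : ∀ z, K.ψ ((2 : ℂ) • (1 - rI)) z = (2 : ℝ) • (z - K.E z) := fun z => by
    rw [map_smul, map_sub, map_one, ψ_rI, ← two]; rfl
  have hE' : ∀ z, K.ψ ((2 : ℂ) • rI) z = (2 : ℝ) • K.E z := fun z => by
    rw [map_smul, ψ_rI, ← two]; rfl
  constructor
  · intro h
    have h1 := h (pull wI) (pull ((2 : ℂ) • (1 - rI))) fun u => by
      have := wR_mul_exp (rho_pos u) (rho_lt_one u)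
      rw [lg_rho] at this
      simp only [pull_apply, ContinuousMap.smul_apply, ContinuousMap.sub_apply,
        ContinuousMap.one_apply, rI_apply, wI_apply, smul_eq_mul, ← ofReal_mul, this]
      push_cast; ring
    have h2 := h (pull ((2 : ℂ) • rI)) (pull wI) fun u => by
      have := wR_mul_exp_neg (rho_pos u) (rho_lt_one u)
      rw [lg_rho] at this
      have e : Real.exp (-u / 2) * Real.exp (u / 2) = 1 := by rw [← Real.exp_add]; simp; ring
      have e2 : wR (rho u) = 2 * rho u * Real.exp (u / 2) := by rw [← this, mul_assoc, e, mul_one]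
      simp only [pull_apply, ContinuousMap.smul_apply, rI_apply, wI_apply, smul_eq_mul, e2]
      push_cast; ring
    rw [D_pull, D_pull, ← T_eq, T_J, hE] at h1
    rw [D_pull, D_pull, ← T_eq, hE'] at h2
    have h3 := congrArg K.J h2
    rw [J_T, ← two, LinearIsometryEquiv.map_smulₛₗ, J_E, J_J] at h3
    simp only [map_ofNat, two] at h3
    rw [A_apply, E_apply] at h1 h3
    constructor
    · rw [map_add]
      have : (2 : ℝ) • (K.P x + K.P y) = (2 : ℝ) • (x + y) := by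
        linear_combination (norm := module) h1 - h3
      exact smul_right_injective H two_ne_zero this
    · rw [map_sub]
      have : (2 : ℝ) • (K.Q x - K.Q y) = (2 : ℝ) • (x - y) := by
        linear_combination (norm := module) h1 + h3
      exact smul_right_injective H two_ne_zero this
  · rintro ⟨h1, h2⟩ f g hfg
    have h3 : K.A y = K.ψ ((2 : ℂ) • (1 - rI)) x := by
      rw [hE, A_apply, E_apply]
      rw [map_add] at h1
      rw [map_sub] at h2
      linear_combination (norm := module) h1 + h2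
    apply K.T_injective
    apply K.T_injective
    rw [T_D, T_D, ← ψ_T, T_J, h3, T_eq, ← ψ_mul, ← ψ_mul]
    congr 2
    ext r
    by_cases hr : 0 < (r : ℝ) ∧ (r : ℝ) < 1
    · have := congrArg (fun t : ℝ => (t : ℂ)) (wR_mul_exp hr.1 hr.2)
      simp only [ofReal_mul, ofReal_sub, ofReal_one, ofReal_ofNat] at this
      simp only [ContinuousMap.mul_apply, gf_apply, hfg, ContinuousMap.smul_apply,
        ContinuousMap.sub_apply, ContinuousMap.one_apply, rI_apply, wI_apply, smul_eq_mul, ← this]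
      ring
    · simp [wR_eq_zero hr]

end SSub

end Crest.Agent.KS
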