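import Crest.Agent.KS.TomA

/-! Rieffel–van Daele modular theory, part C: three analytic lemmas. -/

set_option autoImplicit false

namespace Crest.Agent.KS

open Filter Topology Complex MeasureTheory Set
open scoped FourierTransform

/-- the kernel `e^{av}/(1+e^v)` -/
noncomputable def ker (a : ℂ) (v : ℝ) : ℂ := Complex.exp (a * v) / ((1 + Real.exp v : ℝ) : ℂ)

theorem continuous_ker (a : ℂ) : Continuous (ker a) := by
  unfold ker
  refine Continuous.div (by fun_prop) (by fun_prop) fun v => ?_
  exact ofReal_ne_zero.2 (by positivity)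

theorem ker_ne_zero (a : ℂ) (v : ℝ) : ker a v ≠ 0 :=
  div_ne_zero (Complex.exp_ne_zero _) (ofReal_ne_zero.2 (by positivity))

theorem norm_ker_le {a : ℂ} {m : ℝ} (h0 : m ≤ a.re) (h1 : a.re ≤ 1 - m) (v : ℝ) :
    ‖ker a v‖ ≤ Real.exp (-m * |v|) := by
  unfold ker
  rw [norm_div, Complex.norm_exp, norm_real, Real.norm_of_nonneg (by positivity),
    div_le_iff₀ (by positivity)]
  simp only [mul_re, ofReal_re, ofReal_im, mul_zero, sub_zero]
  rcases abs_cases v with ⟨h, hv⟩ | ⟨h, hv⟩
  · rw [h]
    calc Real.exp (a.re * v) ≤ Real.exp (-m * v + v) := Real.exp_le_exp.2 (by nlinarith)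
      _ = Real.exp (-m * v) * Real.exp v := Real.exp_add _ _
      _ ≤ _ := by gcongr; linarith
  · rw [h]
    calc Real.exp (a.re * v) ≤ Real.exp (-m * -v) := Real.exp_le_exp.2 (by nlinarith)
      _ = Real.exp (-m * -v) * 1 := (mul_one _).symm
      _ ≤ _ := by gcongr; linarith [Real.exp_pos v]

theorem integrable_exp_abs {m : ℝ} (hm : 0 < m) : Integrable fun v : ℝ => Real.exp (-m * |v|) := by
  rw [← integrableOn_univ, ← Iic_union_Ioi (a := (0 : ℝ))]
  refine IntegrableOn.union ?_ ?_
  · refine (integrableOn_exp_mul_Iic hm 0).congr_fun (fun v hv => ?_) measurableSet_Iic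
    simp only [abs_of_nonpos (mem_Iic.1 hv)]; ring_nf
  · refine (integrableOn_exp_mul_Ioi (neg_lt_zero.2 hm) 0).congr_fun (fun v hv => ?_)
      measurableSet_Ioi
    simp only [abs_of_pos (mem_Ioi.1 hv)]

theorem integrable_ker {a : ℂ} (h0 : 0 < a.re) (h1 : a.re < 1) : Integrable (ker a) := by
  have hm : 0 < min a.re (1 - a.re) := lt_min h0 (by linarith)
  exact (integrable_exp_abs hm).mono' (continuous_ker a).aestronglyMeasurable
    (ae_of_all _ (norm_ker_le (min_le_left _ _) (by linarith [min_le_right a.re (1 - a.re)])))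

theorem integral_ker {a : ℂ} (h0 : 0 < a.re) (h1 : a.re < 1) :
    ∫ v, ker a v = Real.pi / Complex.sin (Real.pi * a) := by
  have hb := Complex.Gamma_mul_Gamma_eq_betaIntegral (s := a) (t := 1 - a) h0 (by simpa using h1)
  rw [Complex.Gamma_mul_Gamma_one_sub, add_sub_cancel, Complex.Gamma_one, one_mul] at hb
  rw [hb, Complex.betaIntegral, intervalIntegral.integral_of_le zero_le_one,
    integral_Ioc_eq_integral_Ioo]
  let φ : ℝ → ℝ := fun v => Real.exp v / (1 + Real.exp v)
  have hpos : ∀ v, 0 < 1 + Real.exp v := fun v => by positivity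
  have hd : ∀ v ∈ (univ : Set ℝ),
      HasDerivWithinAt φ (Real.exp v / (1 + Real.exp v) ^ 2) univ v := fun v _ => by
    have := (Real.hasDerivAt_exp v).div ((Real.hasDerivAt_exp v).const_add 1) (hpos v).ne'
    refine (this.congr_deriv ?_).hasDerivWithinAt
    field_simp; ring
  have hinj : InjOn φ univ := fun v _ w _ h => by
    apply Real.exp_injective
    simp only [φ] at h
    rw [div_eq_div_iff (hpos v).ne' (hpos w).ne'] at h
    linarith
  have him : φ '' univ = Ioo 0 1 := by
    ext y
    constructor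
    · rintro ⟨v, -, rfl⟩
      exact ⟨by positivity, by rw [div_lt_one (hpos v)]; linarith⟩
    · rintro ⟨y0, y1⟩
      have : 0 < 1 - y := by linarith
      refine ⟨Real.log (y / (1 - y)), trivial, ?_⟩
      simp only [φ]
      rw [Real.exp_log (by positivity)]
      field_simp; ring
  rw [← him, integral_image_eq_integral_abs_deriv_smul MeasurableSet.univ hd hinj,
    setIntegral_univ]
  refine integral_congr_ae (ae_of_all _ fun v => ?_)
  set L : ℝ := Real.log (1 + Real.exp v) with hL
  have eL : 1 + Real.exp v = Real.exp L := by rw [hL, Real.exp_log (hpos v)]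
  have e1 : φ v = Real.exp (v - L) := by simp only [φ]; rw [Real.exp_sub, eL]
  have e2 : (1 : ℂ) - (φ v : ℂ) = ((Real.exp (-L) : ℝ) : ℂ) := by
    rw [← ofReal_one, ← ofReal_sub]
    congr 1
    simp only [φ]
    rw [Real.exp_neg, ← eL]; field_simp; ring
  have e3 : |Real.exp v / (1 + Real.exp v) ^ 2| = Real.exp (v - 2 * L) := by
    rw [abs_of_pos (by positivity), eL, ← Real.exp_nat_mul, Real.exp_sub]; norm_num
  have cp : ∀ (t : ℝ) (z : ℂ), ((Real.exp t : ℝ) : ℂ) ^ z = Complex.exp (t * z) := fun t z => by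
    rw [Complex.cpow_def_of_ne_zero (ofReal_ne_zero.2 (Real.exp_pos t).ne'),
      ← Complex.ofReal_log (Real.exp_pos t).le, Real.log_exp]
  simp only
  rw [e3, e2, e1, cp, cp, real_smul, ker, eL, ofReal_exp, ofReal_exp, ← Complex.exp_add,
    ← Complex.exp_add, ← Complex.exp_sub]
  congr 1
  push_cast; ring

/-- uniqueness for the two-sided Laplace transform against the kernel -/
theorem laplace_unique (F : ℝ → ℂ) (hF : Continuous F) (C : ℝ) (hC : ∀ v, ‖F v‖ ≤ C)
    (h : ∀ θ : ℝ, 0 < θ → θ < 1 → ∫ v, ker θ v * F v = 0) (v : ℝ) : F v = 0 := by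
  have hC0 : 0 ≤ C := (norm_nonneg _).trans (hC 0)
  let U : Set ℂ := {z | 0 < z.re ∧ z.re < 1}
  have hUo : IsOpen U := (isOpen_lt continuous_const continuous_re).inter
    (isOpen_lt continuous_re continuous_const)
  have hUc : Convex ℝ U := (convex_halfSpace_re_gt 0).inter (convex_halfSpace_re_lt 1)
  let G : ℂ → ℂ := fun z => ∫ v, ker z v * F v
  have hint : ∀ z ∈ U, Integrable fun v => ker z v * F v := fun z hz =>
    ((integrable_ker hz.1 hz.2).norm.mul_const C).mono'
      ((continuous_ker z).mul hF).aestronglyMeasurable (ae_of_all _ fun v => by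
        rw [norm_mul]; exact mul_le_mul_of_nonneg_left (hC v) (norm_nonneg _))
  have hdiff : DifferentiableOn ℂ G U := fun z hz => by
    set m : ℝ := min z.re (1 - z.re) / 2 with hm
    have hm0 : 0 < m := by have := lt_min hz.1 (sub_pos.2 hz.2); positivity
    have hm1 : 2 * m ≤ z.re := by rw [hm]; linarith [min_le_left z.re (1 - z.re)]
    have hm2 : 2 * m ≤ 1 - z.re := by rw [hm]; linarith [min_le_right z.re (1 - z.re)]
    refine (hasDerivAt_integral_of_dominated_loc_of_deriv_le (μ := volume)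
      (F := fun z v => ker z v * F v) (F' := fun z v => (v : ℂ) * ker z v * F v)
      (bound := fun v => (2 / m * C) * Real.exp (-(m / 2) * |v|)) (Metric.ball_mem_nhds z hm0)
      (Eventually.of_forall fun w => ((continuous_ker w).mul hF).aestronglyMeasurable) (hint z hz)
      ((continuous_ofReal.mul (continuous_ker z)).mul hF).aestronglyMeasurable
      (ae_of_all _ fun v w hw => ?_) ((integrable_exp_abs (by positivity)).const_mul _)
      (ae_of_all _ fun v w _ => ?_)).2.differentiableAt.differentiableWithinAt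
    · have hw' : |w.re - z.re| < m := by
        rw [← sub_re]; exact (abs_re_le_norm _).trans_lt (by rwa [← dist_eq_norm])
      rw [abs_lt] at hw'
      have b1 := norm_ker_le (a := w) (m := m) (by linarith) (by linarith) v
      have b2 : |v| ≤ 2 / m * Real.exp (m / 2 * |v|) := by
        have := Real.add_one_le_exp (m / 2 * |v|)
        rw [div_mul_eq_mul_div, le_div_iff₀ hm0]; linarith
      rw [norm_mul, norm_mul, norm_real, Real.norm_eq_abs]
      calc |v| * ‖ker w v‖ * ‖F v‖
          ≤ (2 / m * Real.exp (m / 2 * |v|)) * Real.exp (-m * |v|) * C := by gcongr; exact hC v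
        _ = 2 / m * C * (Real.exp (m / 2 * |v|) * Real.exp (-m * |v|)) := by ring
        _ = _ := by rw [← Real.exp_add]; congr 2; ring
    · unfold ker
      have := ((((hasDerivAt_id w).mul_const (v : ℂ)).cexp).div_const
        ((1 + Real.exp v : ℝ) : ℂ)).mul_const (F v)
      refine this.congr_deriv ?_
      simp only [id]; ring
  have hz0 : ((1 / 2 : ℝ) : ℂ) ∈ U := by simp only [U, mem_ofPred_eq, ofReal_re]; norm_num
  have hfreq : ∃ᶠ z in 𝓝[≠] ((1 / 2 : ℝ) : ℂ), G z = 0 := by
    have ht : Tendsto (fun n : ℕ => ((1 / 2 + 1 / 4 * (1 / ((n : ℝ) + 1)) : ℝ) : ℂ)) atTop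
        (𝓝[≠] ((1 / 2 : ℝ) : ℂ)) := by
      refine tendsto_nhdsWithin_iff.2 ⟨?_, Eventually.of_forall fun n => ?_⟩
      · refine (continuous_ofReal.tendsto _).comp ?_
        have := (tendsto_one_div_add_atTop_nhds_zero_nat (𝕜 := ℝ)).const_mul (1 / 4 : ℝ)
        simpa using this.const_add (1 / 2 : ℝ)
      · simp only [mem_compl_iff, mem_singleton_iff, ofReal_inj]
        have : (0 : ℝ) < 1 / 4 * (1 / ((n : ℝ) + 1)) := by positivity
        linarith
    refine ht.frequently (Eventually.frequently (Eventually.of_forall fun n => h _ ?_ ?_))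
    · positivity
    · have : 1 / ((n : ℝ) + 1) ≤ 1 := by
        rw [div_le_one (by positivity)]; linarith [(Nat.cast_nonneg n : (0 : ℝ) ≤ n)]
      linarith
  have hG := (hdiff.analyticOnNhd hUo).eqOn_zero_of_preconnected_of_frequently_eq_zero
    hUc.isPreconnected hz0 hfreq
  let g : ℝ → ℂ := fun v => ker ((1 / 2 : ℝ) : ℂ) v * F v
  have hg : 𝓕 g = 0 := by
    funext w
    have := hG (x := ((1 / 2 : ℝ) : ℂ) + ((-2 * Real.pi * w : ℝ) : ℂ) * Complex.I) (by
      simp only [U, mem_ofPred_eq, add_re, ofReal_re, mul_re, I_re, ofReal_im, I_im]; norm_num)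
    rw [Real.fourier_real_eq_integral_exp_smul]
    refine Eq.trans (integral_congr_ae (ae_of_all _ fun v => ?_)) this
    simp only [g, ker, smul_eq_mul, add_mul, Complex.exp_add]
    have : ((-2 * Real.pi * w : ℝ) : ℂ) * Complex.I * v = ((-2 * Real.pi * v * w : ℝ) : ℂ) * Complex.I := by
      push_cast; ring
    rw [this]; ring
  have hgi := ((continuous_ker _).mul hF).fourierInv_fourier_eq (hint _ hz0)
    (by rw [show 𝓕 (ker ((1 / 2 : ℝ) : ℂ) * F) = 0 from hg]; exact integrable_zero _ _ _)
  have h0 : g v = 0 := by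
    have := congrFun hgi v
    rw [show 𝓕 (ker ((1 / 2 : ℝ) : ℂ) * F) = 0 from hg, Real.fourierInv_eq] at this
    refine Eq.trans this.symm ?_
    simp
  exact (mul_eq_zero.1 h0).resolve_left (ker_ne_zero _ _)

open unitInterval in
/-- a pointwise identity of two-variable kernels passes to any bounded bilinear map -/
theorem bilin_integral {E : Type*} [NormedAddCommGroup E] [NormedSpace ℂ E] [CompleteSpace E]
    (B : C(I, ℂ) →L[ℂ] C(I, ℂ) →L[ℂ] E) (κ : ℝ) (hκ : 0 ≤ κ)
    (hB : ∀ f g, ‖B f g‖ ≤ κ * ‖f‖ * ‖g‖) (c : ℝ → ℂ) (hc : Integrable c)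
    (F₁ G₁ F₂ G₂ : ℝ → C(I, ℂ)) (h1 : Continuous F₁) (h2 : Continuous G₁) (h3 : Continuous F₂)
    (h4 : Continuous G₂) (C : ℝ) (b1 : ∀ v, ‖F₁ v‖ ≤ C) (b2 : ∀ v, ‖G₁ v‖ ≤ C)
    (b3 : ∀ v, ‖F₂ v‖ ≤ C) (b4 : ∀ v, ‖G₂ v‖ ≤ C) (F G : C(I, ℂ))
    (h : ∀ r r', ∫ v, c v * (F₁ v r * G₁ v r' + F₂ v r * G₂ v r') = F r * G r') :
    ∫ v, c v • (B (F₁ v) (G₁ v) + B (F₂ v) (G₂ v)) = B F G := by
  have hC0 : 0 ≤ C := (norm_nonneg _).trans (b1 0)
  let bn : ∀ n : ℕ, Fin (n + 1) → C(I, ℂ) := fun n k =>
    ⟨fun r => ((bernstein n k r : ℝ) : ℂ), continuous_ofReal.comp (bernstein n k).continuous⟩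
  have hb : ∀ n f, bernsteinApproximation n f = ∑ k : Fin (n + 1), f (bernstein.z k) • bn n k := by
    intro n f
    ext r
    simp [bernsteinApproximation.apply, ContinuousMap.sum_apply, bn, mul_comm]
  have hbn : ∀ n (f : C(I, ℂ)), ‖bernsteinApproximation n f‖ ≤ ‖f‖ := by
    intro n f
    refine (ContinuousMap.norm_le _ (norm_nonneg _)).2 fun r => ?_
    rw [bernsteinApproximation.apply]
    refine (norm_sum_le _ _).trans ?_
    calc ∑ k : Fin (n + 1), ‖bernstein n k r • f (bernstein.z k)‖
        ≤ ∑ k : Fin (n + 1), bernstein n k r * ‖f‖ := Finset.sum_le_sum fun k _ => by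
          rw [norm_smul, Real.norm_of_nonneg bernstein_nonneg]
          exact mul_le_mul_of_nonneg_left (f.norm_coe_le_norm _) bernstein_nonneg
      _ = ‖f‖ := by rw [← Finset.sum_mul, bernstein.probability, one_mul]
  have hi : ∀ r : I, Integrable fun v => c v • (F₁ v r • G₁ v + F₂ v r • G₂ v) := fun r => by
    have e1 : Continuous fun v => F₁ v r := (continuous_eval_const r).comp h1
    have e2 : Continuous fun v => F₂ v r := (continuous_eval_const r).comp h3
    refine (hc.norm.mul_const (C * C + C * C)).mono'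
      (hc.1.smul ((e1.smul h2).add (e2.smul h4)).aestronglyMeasurable) (ae_of_all _ fun v => ?_)
    rw [norm_smul]
    refine mul_le_mul_of_nonneg_left ((norm_add_le _ _).trans (add_le_add ?_ ?_)) (norm_nonneg _)
    · rw [norm_smul]
      exact mul_le_mul (((F₁ v).norm_coe_le_norm r).trans (b1 v)) (b2 v) (norm_nonneg _) hC0
    · rw [norm_smul]
      exact mul_le_mul (((F₂ v).norm_coe_le_norm r).trans (b3 v)) (b4 v) (norm_nonneg _) hC0
  have hI : ∀ r : I, ∫ v, c v • (F₁ v r • G₁ v + F₂ v r • G₂ v) = F r • G := fun r => by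
    ext r'
    have := (ContinuousMap.evalCLM ℂ r').integral_comp_comm (hi r)
    simp only [ContinuousMap.evalCLM_apply] at this
    rw [← this, ContinuousMap.smul_apply, smul_eq_mul, ← h r r']
    simp
  have key : ∀ n, ∫ v, c v • (B (bernsteinApproximation n (F₁ v)) (G₁ v) +
      B (bernsteinApproximation n (F₂ v)) (G₂ v)) = B (bernsteinApproximation n F) G := fun n => by
    have e : ∀ v, c v • (B (bernsteinApproximation n (F₁ v)) (G₁ v) +
        B (bernsteinApproximation n (F₂ v)) (G₂ v)) = ∑ k : Fin (n + 1),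
          B (bn n k) (c v • (F₁ v (bernstein.z k) • G₁ v + F₂ v (bernstein.z k) • G₂ v)) := fun v => by
      simp only [hb, map_sum, map_smul, sum_apply, smul_apply, map_add,
        ← Finset.sum_add_distrib, Finset.smul_sum]
    simp_rw [e]
    rw [integral_finsetSum _ fun k _ => (B (bn n k)).integrable_comp (hi _), hb, map_sum,
      sum_apply]
    refine Finset.sum_congr rfl fun k _ => ?_
    rw [(B (bn n k)).integral_comp_comm (hi _), hI, map_smul, map_smul, smul_apply]
  have hcB : ∀ g : C(I, ℂ), Continuous fun f => B f g := fun g =>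
    (ContinuousLinearMap.apply ℂ E g).continuous.comp B.continuous
  have lim2 : Tendsto (fun n => B (bernsteinApproximation n F) G) atTop (𝓝 (B F G)) :=
    ((hcB G).tendsto F).comp (bernsteinApproximation_uniform F)
  have hbc : ∀ n, Continuous fun f : C(I, ℂ) => bernsteinApproximation n f := fun n => by
    simp_rw [hb]
    refine continuous_finsetSum _ fun k _ => ?_
    have e : Continuous fun f : C(I, ℂ) => f (bernstein.z k) := continuous_eval_const _
    exact e.smul (continuous_const (y := bn n k))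
  have lim1 := tendsto_integral_of_dominated_convergence (μ := volume)
    (F := fun n v => c v • (B (bernsteinApproximation n (F₁ v)) (G₁ v) +
      B (bernsteinApproximation n (F₂ v)) (G₂ v)))
    (f := fun v => c v • (B (F₁ v) (G₁ v) + B (F₂ v) (G₂ v)))
    (fun v => ‖c v‖ * (κ * C * C + κ * C * C))
    (fun n => hc.1.smul (((B.continuous.comp ((hbc n).comp h1)).clm_apply h2).add
      ((B.continuous.comp ((hbc n).comp h3)).clm_apply h4)).aestronglyMeasurable)
    (hc.norm.mul_const _) (fun n => ae_of_all _ fun v => by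
      rw [norm_smul]
      refine mul_le_mul_of_nonneg_left ((norm_add_le _ _).trans (add_le_add ?_ ?_)) (norm_nonneg _)
      · refine (hB _ _).trans ?_
        gcongr
        exacts [(hbn _ _).trans (b1 v), b2 v]
      · refine (hB _ _).trans ?_
        gcongr
        exacts [(hbn _ _).trans (b3 v), b4 v])
    (ae_of_all _ fun v => ((((hcB _).tendsto _).comp (bernsteinApproximation_uniform (F₁ v))).add
      (((hcB _).tendsto _).comp (bernsteinApproximation_uniform (F₂ v)))).const_smul _)
  simp only [key] at lim1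
  exact tendsto_nhds_unique lim1 lim2

end Crest.Agent.KS
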